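import Crest.Agent.X212.Gl50.Loc
import Crest.Agent.X212.Pb50.Rep
import Crest.Agent.X212.Cut71.Lit

/-!
# Row 212, GL-S (helper50): GL-NR, GL-CP; the symmetry of the format
-/

set_option autoImplicit false
set_option linter.unusedSectionVars false
noncomputable section
open scoped Manifold ContDiff Topology InnerProductSpace ENNReal
open MeasureTheory Set Function Filter

namespace Crest.Agent.X212.Gl50
open An Sob92 Prm93 Gl67 Pb50 Sw Cyf70 Gls64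
open M (Mf)
open Neck67 (dn up cS)

variable {κ lam ν : Type} [Fintype κ] [Fintype lam] [Fintype ν] [DecidableEq ν]
  {d : Dt κ lam ν} {N : Type} [Fintype N] {ty : N → d.𝓔} {X X₁ X₂ : Mf 4}
  {nc nr n₁ r₁ n₂ r₂ k : ℕ}
  {T T₁ T₂ : Type} [NormedAddCommGroup T] [NormedSpace ℝ T] [FiniteDimensional ℝ T]
  [NormedAddCommGroup T₁] [NormedSpace ℝ T₁] [FiniteDimensional ℝ T₁]
  [NormedAddCommGroup T₂] [NormedSpace ℝ T₂] [FiniteDimensional ℝ T₂]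
  {s : Pz X 0 fun i => d.e (ty i)} {s₁ : Pz X₁ 0 fun i => d.e (ty i)}
  {s₂ : Pz X₂ 0 fun i => d.e (ty i)} {σ : Cel s nc nr T} {σ₁ : Cel s₁ n₁ r₁ T₁}
  {σ₂ : Cel s₂ n₂ r₂ T₂} {α : Type} {l : Filter α}
  {V : Type} [NormedAddCommGroup V] [NormedSpace ℝ V]

theorem sa_toLp {β : Type} [Fintype β] {f : β → X.M → ℝ} {x : X.M}
    (h : ∀ s, Wz78.SA X.I (f s) x) :
    Wz78.SA X.I (fun y => (WithLp.toLp 2 fun s => f s y : Fm β ℝ)) x :=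
  Wz78.SA.clm (PiLp.continuousLinearEquiv 2 ℝ fun _ : β => ℝ).symm.toContinuousLinearMap
    (contMDiffAt_pi_space.2 h)

theorem ev_choice {β : Type} (b : β) {p : α → β → Prop} (h : ∀ᶠ i in l, ∃ y, p i y) :
    ∃ f : α → β, ∀ᶠ i in l, p i (f i) := by
  classical
  exact ⟨fun i => if k : ∃ y, p i y then k.choose else b, h.mono fun i k => by
    simp only [dif_pos k, k.choose_spec]⟩

/-! ### one cell -/

section cel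
variable (h : σ.toFam.OK)
include h

theorem S_al_at {t : T} (ht : t ∈ σ.Q) {c : Cfg X.M κ ν} {x : X.M}
    (hc : ∀ i, ∑ j, s.bg.B.P i j x * c.a j x = c.a i x) (i : Option κ) :
    ∑ a, σ.S t x i a * σ.al t c x a = c.a i x :=
  S_al (c := ⟨fun a y => ∑ j, s.bg.B.P a j y * c.a j x, c.Φ⟩) h ht (fun i y => by
    simp only [Finset.mul_sum, ← mul_assoc]
    rw [Finset.sum_comm]
    exact Finset.sum_congr rfl fun j _ => by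
      rw [← Finset.sum_mul, (h.site.bg.B.pr y).idem]) i x |>.trans (hc i) |> fun e => by
    simpa only [Fam.al, hc] using e

theorem pa_pnt (y : σ.Pnt) (i : Option κ) (x : X.M) :
    ∑ j, s.bg.B.P i j x * y.1.2.a j x = y.1.2.a i x := ((as_fam h y.2.1 _ _).1 y.2.2).2 i x

variable (hβ : s.Cr σ.β)
include hβ

theorem hi_al (y y' : σ.Pnt) : Hi s.bg.F.toPre (σ.al y.1.1 y.1.2 - σ.al y'.1.1 y'.1.2) := by
  have hT := h.site.bg.tame.choose_spec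
  have := Hi.sub ((hs_iff hT).1 (hs_a h hβ y)).1 ((hs_iff hT).1 (hs_a h hβ y')).1
  refine (congrArg (Hi _) (funext fun x => ?_)).mp this
  exact sub_sub_sub_cancel_right _ _ _

theorem hi_Φ (y y' : σ.Pnt) : Hi s.bg.F.toPre (y.1.2.Φ - y'.1.2.Φ) := by
  have hT := h.site.bg.tame.choose_spec
  have := Hi.sub ((hs_iff hT).1 (hs_Φ h hβ y)).1 ((hs_iff hT).1 (hs_Φ h hβ y')).1
  rwa [sub_sub_sub_cancel_right] at this

/-- perturbation of a point -/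
theorem exists_add {t : T} (ht : t ∈ σ.Q) (y₀ : σ.Pnt) {a : X.M → Fm (Option κ) ℝ} {φ : X.M → Eu ν}
    (ha : Hi s.bg.F.toPre a) (hφ : Hi s.bg.F.toPre φ) (pa : ∀ x, s.bg.p1 x (a x) = a x)
    (pφ : ∀ x, s.bg.pp x (φ x) = φ x) : ∃ y : σ.Pnt, y.1.1 = t ∧
      σ.al t y.1.2 = σ.al y₀.1.1 y₀.1.2 + a ∧ y.1.2.Φ = y₀.1.2.Φ + φ := by
  have hT := h.site.bg.tame.choose_spec
  obtain ⟨a1, a2⟩ := (hs_iff hT).1 (hs_a h hβ y₀)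
  obtain ⟨b1, b2⟩ := (hs_iff hT).1 (hs_Φ h hβ y₀)
  have a3 := (hs_iff hT).2 ⟨a1.add ha, fun x => by rw [Pi.add_apply, map_add, a2, pa]⟩
  have b3 := (hs_iff hT).2 ⟨b1.add hφ, fun x => by rw [Pi.add_apply, map_add, b2, pφ]⟩
  obtain ⟨y, hy⟩ := exists_pt h hβ ht a3 b3
  obtain rfl : y.1.1 = t := congrArg (·.2.2) (hy 3)
  have e1 := val_a h hβ le_rfl y
  have e2 := val_Φ h hβ le_rfl y
  rw [hy, Mod61.val_ofV a3 le_rfl] at e1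
  rw [hy, Mod61.val_ofV b3 le_rfl] at e2
  refine ⟨y, rfl, funext fun x => ?_, by rw [← sub_add_cancel y.1.2.Φ (s.base σ.β).Φ, ← e2]; abel⟩
  rw [eq_add_of_sub_eq (congrFun e1 x).symm, Pi.add_apply, Pi.add_apply]
  abel

theorem dk_iff {y : α → σ.Pnt} {x : σ.Pnt} : Tendsto (fun i => σ.dk k (y i) x) l (𝓝 0) ↔
    Tendsto (fun i => Nz s.bg.F.toPre univ k (σ.al (y i).1.1 (y i).1.2 - σ.al x.1.1 x.1.2)) l (𝓝 0) ∧
    Tendsto (fun i => Nz s.bg.F.toPre univ k ((y i).1.2.Φ - x.1.2.Φ)) l (𝓝 0) ∧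
    Tendsto (fun i => (y i).1.1) l (𝓝 x.1.1) := by
  rw [← nrm_iff (.of_forall fun i => hi_al h hβ (y i) x),
    ← nrm_iff (.of_forall fun i => hi_Φ h hβ (y i) x), tendsto_iff_norm_sub_tendsto_zero (b := x.1.1)]
  refine ⟨fun e => ⟨?_, ?_, ?_⟩, fun e => by
    simpa [Cel.dk] using (e.1.add e.2.1).add e.2.2⟩ <;>
    refine squeeze_zero (fun _ => by first | exact nrm_nonneg _ _ | exact norm_nonneg _)
      (fun i => ?_) e <;> rw [Cel.dk] <;>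
    linarith [nrm_nonneg (F := s.bg.F.toPre) k (σ.al (y i).1.1 (y i).1.2 - σ.al x.1.1 x.1.2),
      nrm_nonneg (F := s.bg.F.toPre) k ((y i).1.2.Φ - x.1.2.Φ), norm_nonneg ((y i).1.1 - x.1.1)]

end cel

/-! ### symmetry -/

variable {S : Sp X X₁ X₂ nc n₁ n₂ T T₁ T₂} {x : σ₁.Pnt} {z : σ₂.Pnt} {xx : ℝ × ℝ → σ₁.Pnt}
  {zz : ℝ × ℝ → σ₂.Pnt} {cc : ℝ × ℝ → σ.Pnt} {δ : α → ℝ × ℝ} {y : α → σ.Pnt} {t₁ : α → T₁}
  {t₂ : α → T₂}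

theorem swap_lg : S.swap.lg = S.lg := rfl

theorem swap_θ (δ : ℝ × ℝ) (t₁ : T₁) (t₂ : T₂) : S.swap.θ δ (t₂, t₁) = S.θ δ (t₁, t₂) := rfl

theorem geo_swap (h : S.Geo σ σ₁ σ₂) : S.swap.Geo σ σ₂ σ₁ :=
  ⟨h.ok, h.ok₂, h.ok₁, h.ht.mono fun δ ⟨g, h1, h2⟩ => ⟨_, h2, by
      simpa only [Sp.swap, sub_sub_cancel] using h1⟩,
    fun J => (h.mt J).mono fun _ k => ⟨k.2.1, k.1, k.2.2.mono fun _ k t₂ h2 t₁ h1 =>
      ⟨(k t₁ h1 t₂ h2).1, (k t₁ h1 t₂ h2).2.2, (k t₁ h1 t₂ h2).2.1⟩⟩⟩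

theorem agr_swap {δ : ℝ × ℝ} {a : ℝ} {y : σ.Pnt} {y₁ : σ₁.Pnt} {y₂ : σ₂.Pnt}
    (h : S.Agr δ a y y₁ y₂) : S.swap.Agr δ a y y₂ y₁ := ⟨h.1, h.2.2, h.2.1⟩

theorem pre_swap (h : S.Pre x z xx zz cc) : S.swap.Pre z x zz xx cc :=
  ⟨h.ag.mono fun _ k => ⟨k.2.1, k.1, agr_swap k.2.2⟩, h.cz, h.cx⟩

theorem nr_swap (h : S.Nr k l δ y t₁ t₂ x z) : S.swap.Nr k l δ y t₂ t₁ z x :=
  ⟨h.t, h.l₂, h.l₁, h.c₂, h.c₁⟩

theorem nr_swap_iff : S.swap.Nr k l δ y t₂ t₁ z x ↔ S.Nr k l δ y t₁ t₂ x z :=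
  ⟨fun h => ⟨h.t, h.l₂, h.l₁, h.c₂, h.c₁⟩, nr_swap⟩

theorem deg_swap_iff : S.swap.Deg l y z x ↔ S.Deg l y x z :=
  ⟨fun ⟨y', _, _, δ, h1, h2, h3⟩ => ⟨y', _, _, δ, h1, h2, fun k => nr_swap_iff.1 (h3 k)⟩,
    fun ⟨y', _, _, δ, h1, h2, h3⟩ => ⟨y', _, _, δ, h1, h2, fun k => nr_swap (h3 k)⟩⟩

/-! ### GL-NR -/

theorem al_ag {φ : X₁.M → X.M} {O : Set X₁.M} {c : Cfg X.M κ ν} {c' : Cfg X₁.M κ ν}
    (h : Ag φ O c c') (t : T₁) : EqOn (σ₁.al t (c.pb φ)) (σ₁.al t c') O := fun p hp => by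
  simp only [Fam.al, Cfg.pb, (h p hp).1]

theorem nr_half (h : σ₁.OK) {g : X₁.M → ℝ} (hg : Continuous g) {φ : α → X₁.M → X.M} {r : α → ℝ}
    {y₁ : α → σ₁.Pnt} (hy : Tendsto (fun i => σ₁.dk k (y₁ i) x) l (𝓝 0))
    (ha : ∀ᶠ i in l, ∃ a > r i, Ag (φ i) {p | g p < a} (y i).1.2 (y₁ i).1.2)
    (w : List (Option κ)) (hw : w.length ≤ k) : Tendsto (fun i =>
      dO σ₁ {p | g p ≤ r i} (y₁ i).1.1 ((y i).1.2.pb (φ i)) x w) l (𝓝 0) := by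
  have hβ := cr_of_gd h.gd
  obtain ⟨h1, h2, -⟩ := (dk_iff h.toOK hβ).1 hy
  refine tendsto_of_tendsto_of_tendsto_of_le_of_le' tendsto_const_nhds (by simpa using h1.add h2)
    (.of_forall fun _ => zero_le) (ha.mono fun i ⟨a, h3, h4⟩ => ?_)
  have o := isOpen_lt hg (continuous_const (y := a))
  refine le_trans ?_ (add_le_add (word_le hw) (word_le hw))
  rw [← lintegral_add_left ((sm_Dw (hi_al h.toOK hβ _ _).1 w).continuous.measurable.enorm.pow_const 2)]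
  refine le_trans (le_of_eq (setLIntegral_congr_fun (isClosed_le hg continuous_const).measurableSet
    fun p hp => ?_)) (lintegral_mono_set (subset_univ _))
  have m := o.mem_nhds (show p ∈ {p | g p < a} from lt_of_le_of_lt hp h3)
  exact congrArg₂ (‖·‖ₑ ^ 2 + ‖·‖ₑ ^ 2)
    (Prm93.Dw_congr w (((al_ag h4 _).eventuallyEq_of_mem m).sub .rfl))
    (Prm93.Dw_congr w (EventuallyEq.sub (mem_of_superset m fun q hq => (h4 q hq).2) .rfl))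

variable (d ty X X₁ X₂ nc nr n₁ r₁ n₂ r₂ T T₁ T₂) in
/-- **GL-NR** -/
theorem nrStmt : NrStmt d ty X X₁ X₂ nc nr n₁ r₁ n₂ r₂ T T₁ T₂ :=
  fun _ _ _ _ _ _ _ _ _ _ _ _ h _ _ _ _ _ _ _ _ h1 h2 h3 =>
    ⟨h3.mono fun _ ⟨_, _, k⟩ => k.1, ((dk_iff h.ok₁.toOK (cr_of_gd h.ok₁.gd)).1 h1).2.2,
      ((dk_iff h.ok₂.toOK (cr_of_gd h.ok₂.gd)).1 h2).2.2,
      nr_half h.ok₁ h.hg.1.sm.continuous h1 (h3.mono fun _ ⟨a, k, k'⟩ => ⟨a, k, k'.2.1⟩),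
      nr_half h.ok₂ h.hg.2.sm.continuous h2 (h3.mono fun _ ⟨a, k, k'⟩ => ⟨a, k, k'.2.2⟩)⟩

/-! ### GL-CP -/

theorem ht_iff {φ : OpenPartialHomeomorph X₁.M X.M} {g₁ : X₁.M → ℝ} {g : X.M → ℝ} {A : ℝ}
    (H : Ht φ g₁ g A) {p : X₁.M} (hp : p ∈ φ.source) (k : g₁ p < A ∨ g (φ p) < A) :
    g (φ p) = g₁ p := by
  have := H.ht p hp
  rcases k with k | k <;> rw [min_eq_left k.le] at this
  · exact ((min_eq_iff.1 this).resolve_right fun e => k.ne' e.1).1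
  · exact ((min_eq_iff.1 this.symm).resolve_right fun e => k.ne' e.1).1.symm

section half
variable {φ : OpenPartialHomeomorph X₁.M X.M} {g₁ : X₁.M → ℝ} {g : X.M → ℝ} {A q : ℝ} {t₁ : T₁}
  {y c : σ.Pnt} {x' : σ₁.Pnt} (h₁ : σ₁.toFam.OK) (ht : t₁ ∈ σ₁.Q)
  (L : (σ₁.P t₁).bg.Lit (σ.P y.1.1).bg φ)
include h₁ ht L

theorem la_pb {p : X₁.M} (hp : p ∈ φ.source) : LA (σ₁.P t₁).bg (y.1.2.pb φ) p :=
  Cut71.la_φ L hp (.of_forall (Cut71.At.pb _ _)) (.of_adm y.2.2.1 _)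

theorem pa_pb {p : X₁.M} (hp : p ∈ φ.source) (i : Option κ) :
    ∑ j, s₁.bg.B.P i j p * y.1.2.a j (φ p) = y.1.2.a i (φ p) :=
  h₁.B t₁ ht ▸ (la_pb h₁ ht L hp).pa i

theorem smo_a : SmO X₁.I φ.source (σ₁.al t₁ (y.1.2.pb φ)) := fun p hp =>
  sa_toLp fun a => Wz78.SA.sum _ fun j _ => Wz78.SA.mul
    (((h₁.sSi a j).cb _ ht).choose_spec.1 p) ((la_pb h₁ ht L hp).sa j)

theorem strip0 {J : Finset d.W} {a₀ u v : ℝ} (hF : Face σ₁ g₁ J a₀) (H : Ht φ g₁ g A)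
    (hu : a₀ - 3 ≤ u) (hv : v ≤ A) {f₁ : X₁.M → V} {f : X.M → V} (hf : Sm X.I f)
    (e : EqOn f₁ (f ∘ φ) (g₁ ⁻¹' Ioo u v)) : Nz s₁.bg.F.toPre (g₁ ⁻¹' Ioo u v) k f₁ =
      Nz (σ.P y.1.1).bg.F.toPre (g ⁻¹' Ioo u v) k f := by
  have o := (isOpen_Ioo (a := u) (b := v)).preimage hF.sm.continuous
  have m : g₁ ⁻¹' Ioo u v ⊆ {x | a₀ - 3 ≤ g₁ x} := fun p hp => hu.trans hp.1.le
  refine (Nz_frame (F' := (σ₁.P t₁).bg.F.toPre) o (fun p hp a => ((hF.fr _ ht p (m hp)).2 a).2.symm)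
    ?_ e).trans (N_iso L.iso continuous_zero o.measurableSet
      (isOpen_Ioo.preimage H.cont).measurableSet (fun p hp => H.src (hp.2.trans_le hv))
      (fun p hp => H.tgt (hp.2.trans_le hv)) (fun p hp => ⟨fun k => ?_, fun k => ?_⟩)
      (fun _ _ => rfl) hf)
  · rw [← inter_eq_left.2 m, ← Measure.restrict_restrict o.measurableSet,
      ← Measure.restrict_restrict o.measurableSet, hF.fμ _ ht]
  · rwa [mem_preimage, ht_iff H hp (.inl (k.2.trans_le hv))]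
  · rwa [mem_preimage, ← ht_iff H hp (.inr (k.2.trans_le hv))]

variable (ha : Ag φ {p | g₁ p < A} c.1.2 x'.1.2)
include ha

theorem strip {J : Finset d.W} {a₀ u v : ℝ} (hF : Face σ₁ g₁ J a₀) (H : Ht φ g₁ g A)
    (hu : a₀ - 3 ≤ u) (hv : v ≤ A) :
    Nz s₁.bg.F.toPre (g₁ ⁻¹' Ioo u v) k (σ₁.al t₁ (y.1.2.pb φ) - σ₁.al x'.1.1 x'.1.2) =
      Nz (σ.P y.1.1).bg.F.toPre (g ⁻¹' Ioo u v) k
        (fun p => (WithLp.toLp 2 fun a => y.1.2.a a p - c.1.2.a a p : Fm (Option κ) ℝ)) ∧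
    Nz s₁.bg.F.toPre (g₁ ⁻¹' Ioo u v) k ((y.1.2.pb φ).Φ - x'.1.2.Φ) =
      Nz (σ.P y.1.1).bg.F.toPre (g ⁻¹' Ioo u v) k (y.1.2.Φ - c.1.2.Φ) := by
  refine ⟨strip0 h₁ ht L hF H hu hv (fun p => sa_toLp fun a =>
    (y.2.2.1.sa a p).sub (c.2.2.1.sa a p)) fun p hp => ?_, strip0 h₁ ht L hF H hu hv
      (y.2.2.1.sΦ.sub c.2.2.1.sΦ) fun p hp => congrArg (_ - ·) (ha p (hp.2.trans_le hv)).2.symm⟩
  have k1 := hu.trans hp.1.le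
  have k2 := hp.2.trans_le hv
  ext a
  simp only [Pi.sub_apply, PiLp.sub_apply, Fam.al, ((hF.fr _ ht p k1).1 a _).2,
    ((hF.fr _ x'.2.1 p k1).1 a _).2, pa_pnt h₁, Cfg.pb, pa_pb h₁ ht L (H.src k2), comp, (ha p k2).1]

variable (h : σ.toFam.OK) (L₀ : (σ₁.P x'.1.1).bg.Lit (σ.P c.1.1).bg φ)
  (hs : {p | g₁ p < A} ⊆ φ.source)
include h L₀ hs

theorem al_eq {p : X₁.M} (hp : g₁ p < A) (a : Option κ) :
    (σ₁.al t₁ (y.1.2.pb φ) - σ₁.al x'.1.1 x'.1.2) p a = ∑ b, σ₁.Si t₁ p a b * ∑ e,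
      σ.S y.1.1 (φ p) b e * (σ.al y.1.1 y.1.2 - σ.al c.1.1 c.1.2) (φ p) e := by
  have U := (Gr93.u d ty X X₁ nc n₁ T T₁ s s₁ _ _ h h₁ _ y.2.1 _ c.2.1 _ ht _ x'.2.1 φ L L₀ p (hs hp)).1
  have e1 : ∀ b, ∑ e, σ.S y.1.1 (φ p) b e * σ.al c.1.1 c.1.2 (φ p) e =
      ∑ e, σ₁.S t₁ p b e * σ₁.al x'.1.1 x'.1.2 p e := fun b => by
    simp only [Fam.al, Finset.mul_sum, ← mul_assoc]
    rw [Finset.sum_comm, Finset.sum_comm (f := fun e j => σ₁.S t₁ p b e * _ * _)]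
    exact Finset.sum_congr rfl fun j _ => by
      rw [← Finset.sum_mul, ← Finset.sum_mul, U, (ha p hp).1]
  simp only [Pi.sub_apply, PiLp.sub_apply, mul_sub, Finset.sum_sub_distrib, e1,
    S_al h y.2.1 (pa_pnt h y)]
  exact congrArg₂ (· - ·) rfl (al_S h₁ ht (α := fun e p => σ₁.al x'.1.1 x'.1.2 p e)
    (P_al h₁ x'.2.1 _) 0 p a).symm

/-- the cut point -/
theorem exists_cut (hβ : s.Cr σ.β) (hβ₁ : s₁.Cr σ₁.β) (hg : Hg s₁.bg.F.toPre g₁) (hq : q + 2 < A) :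
    ∃ y₁ : σ₁.Pnt, y₁.1.1 = t₁ ∧ Ag φ {p | g₁ p ≤ q - 1} y.1.2 y₁.1.2 ∧
      σ₁.al t₁ y₁.1.2 = σ₁.al x'.1.1 x'.1.2 + (fun p => dn q 1 (g₁ p) •
        (σ₁.al t₁ (y.1.2.pb φ) - σ₁.al x'.1.1 x'.1.2) p) ∧
      y₁.1.2.Φ = x'.1.2.Φ + fun p => dn q 1 (g₁ p) • ((y.1.2.pb φ).Φ - x'.1.2.Φ) p := by
  have tr : ∀ {V : Type} [NormedAddCommGroup V] [NormedSpace ℝ V] {f : X.M → V},
      Hi s.bg.F.toPre f → Hi s₁.bg.F.toPre fun p => dn q 1 (g₁ p) • f (φ p) := fun hf =>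
    Hi.dom (Gr93.cmp h₁ ht).2 (hi_pull L.iso (hg_cmp (Gr93.cmp h₁ ht) hg) hs hq
      (Hi.dom (Gr93.cmp h y.2.1).1 hf))
  have z : ∀ p, ¬g₁ p < A → dn q 1 (g₁ p) = 0 := fun p hp =>
    Neck67.dn_zero one_pos (by linarith)
  have h1 := Hi.toLp fun a => Hi.sum Finset.univ fun b => Hi.smul ((h₁.sSi a b).cb _ ht)
    (tr (Hi.sum Finset.univ fun e => Hi.smul ((h.sS b e).cb _ y.2.1)
      ((hi_al h hβ y c).clm (PiLp.proj 2 (fun _ : Option κ => ℝ) e))))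
  obtain ⟨y₁, rfl, h2, h3⟩ := exists_add h₁ hβ₁ ht x' (a := fun p => dn q 1 (g₁ p) •
      (σ₁.al t₁ (y.1.2.pb φ) - σ₁.al x'.1.1 x'.1.2) p)
      (φ := fun p => dn q 1 (g₁ p) • ((y.1.2.pb φ).Φ - x'.1.2.Φ) p) (by
    convert h1 using 2 with p
    ext a
    by_cases hp : g₁ p < A
    · rw [PiLp.smul_apply, al_eq h₁ ht L ha h L₀ hs hp, smul_eq_mul, Finset.mul_sum]
      exact Finset.sum_congr rfl fun b _ => mul_left_comm _ _ _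
    · simp [z p hp]) (by
    convert tr (hi_Φ h hβ y c) using 2 with p
    by_cases hp : g₁ p < A
    · simp only [Pi.sub_apply, (ha p hp).2, Cfg.pb]
    · simp [z p hp]) (fun p => by
    rw [map_smul]
    ext a
    simp only [PiLp.smul_apply, p1_apply, Pi.sub_apply, PiLp.sub_apply, mul_sub,
      Finset.sum_sub_distrib, P_al h₁ ht, P_al h₁ x'.2.1]) fun p => by
    by_cases hp : g₁ p < A
    · rw [map_smul, Pi.sub_apply, map_sub, ← pp_fam h₁ ht, (la_pb h₁ ht L (hs hp)).pΦ,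
        pp_fam h₁ ht, ← pp_fam h₁ x'.2.1, x'.2.2.1.pΦ]
    · simp [z p hp]
  refine ⟨y₁, rfl, fun p hp => ?_, h2, h3⟩
  have k1 : g₁ p ≤ q - 1 := hp
  have k2 := Neck67.dn_one one_pos k1
  refine ⟨fun a => ?_, by simp [h3, k2, Cfg.pb]⟩
  rw [← S_al h₁ ht (pa_pnt h₁ y₁), h2]
  simp only [Pi.add_apply, k2, one_smul, Pi.sub_apply, add_sub_cancel]
  exact (S_al_at h₁ ht (c := y.1.2.pb φ) (pa_pb h₁ ht L (hs (by
    show g₁ p < A; linarith))) a).symm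

end half

theorem near {ι : Type} [Fintype ι] {F : Pre X.I X.M ι} {g : X.M → ℝ} (hg : Continuous g)
    {r : α → ℝ} {f v : α → X.M → V} {w : X.M → V} (hw : Sm X.I w) (hv : ∀ i, Sm X.I (v i))
    (hf : ∀ᶠ i in l, ∃ a > r i, SmO X.I {p | g p < a} (f i))
    (h1 : ∀ u : List ι, u.length ≤ k →
      Tendsto (fun i => ∫⁻ p in {p | g p ≤ r i}, ‖F.Dw u (f i - w) p‖ₑ ^ 2 ∂F.μ) l (𝓝 0))
    (h2 : Tendsto (fun i => Nz F univ k (v i - w)) l (𝓝 0)) :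
    Tendsto (fun i => Nz F {p | g p ≤ r i} k (f i - v i)) l (𝓝 0) := by
  have m : ∀ i, MeasurableSet {p | g p ≤ r i} := fun i => (isClosed_le hg continuous_const).measurableSet
  have h3 := Nz_tendsto k (hf.mono fun i ⟨a, k1, k2⟩ => ⟨m i, fun p hp =>
    (k2 p (lt_of_le_of_lt hp k1)).sub (hw p)⟩) h1
  have h4 := (ENNReal.Tendsto.const_mul (a := 2) h3 (by simp)).add
    (ENNReal.Tendsto.const_mul (a := 2) h2 (by simp))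
  refine tendsto_of_tendsto_of_tendsto_of_le_of_le' tendsto_const_nhds (by simpa using h4)
    (.of_forall fun _ => zero_le) (hf.mono fun i ⟨a, k1, k2⟩ => ?_)
  rw [show f i - v i = (f i - w) + (w - v i) by abel]
  refine (N_add (isOpen_lt hg continuous_const) (m i) (fun p hp => lt_of_le_of_lt hp k1)
    continuous_zero (k2.sub (smO hw)) (smO (hw.sub (hv i)))).trans (add_le_add le_rfl
      (mul_le_mul_right ((N_sub_comm (u := w)).trans_le (N_mono (subset_univ _))) _))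

theorem est {ι : Type} [Fintype ι] {F₁ : Pre X₁.I X₁.M ι} {F₂ : Pre X₂.I X₂.M ι} {g₁ : X₁.M → ℝ}
    {g₂ : X₂.M → ℝ} (hg : Hg F₁ g₁) {Λ : α → ℝ} {f₁ v : α → X₁.M → V} {f₂ : α → X₂.M → V}
    {w : X₁.M → V} (hw : Sm X₁.I w) (hv : ∀ i, Sm X₁.I (v i))
    (hf : ∀ᶠ i in l, 2 < Λ i ∧ SmO X₁.I {p | g₁ p < 3 * Λ i + 3} (f₁ i) ∧
      Nz F₁ (g₁ ⁻¹' Ioo (2 * Λ i + 1) (2 * Λ i + 4)) k (f₁ i) =
        Nz F₂ (g₂ ⁻¹' Ioo (2 * Λ i - 4) (2 * Λ i - 1)) k (f₂ i))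
    (h1 : Tendsto (fun i => Nz F₁ {p | g₁ p ≤ 2 * Λ i + 1} k (f₁ i)) l (𝓝 0))
    (h2 : Tendsto (fun i => Nz F₂ {p | g₂ p ≤ 2 * Λ i + 1} k (f₂ i)) l (𝓝 0))
    (h3 : Tendsto (fun i => Nz F₁ univ k (v i - w)) l (𝓝 0)) : Tendsto (fun i => Nz F₁ univ k
      (v i + (fun p => dn (2 * Λ i + 3) 1 (g₁ p) • f₁ i p) - w)) l (𝓝 0) := by
  obtain ⟨C, c1, c2⟩ := Nz_cut (V := V) hg k
  have h4 := (ENNReal.Tendsto.const_mul (a := 2) h3 (by simp)).add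
    (ENNReal.Tendsto.const_mul (a := 2)
      (ENNReal.Tendsto.const_mul (a := C) (h1.add h2) (.inr c1)) (by simp))
  refine tendsto_of_tendsto_of_tendsto_of_le_of_le' tendsto_const_nhds (by simpa using h4)
    (.of_forall fun _ => zero_le) (hf.mono fun i ⟨k1, k2, k3⟩ => ?_)
  rw [add_sub_right_comm]
  refine (N_add isOpen_univ .univ Subset.rfl continuous_zero (smO ((hv i).sub hw))
    (smO (sm_cut hg.sm (by linarith) k2))).trans (add_le_add le_rfl (mul_le_mul_right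
      ((c2 _ _ _ (by linarith) k2).trans (mul_le_mul_right ?_ _)) _))
  refine (N_mono fun p hp => ?_).trans (N_union.trans (add_le_add le_rfl
    (k3.trans_le (N_mono fun p hp => ?_))))
  · exact (le_or_gt (g₁ p) (2 * Λ i + 1)).imp id fun k => ⟨k, by linarith [mem_ofPred.1 hp]⟩
  · exact show g₂ p ≤ _ by linarith [hp.2]

/-- the data at one index -/
structure Dat (S : Sp X X₁ X₂ nc n₁ n₂ T T₁ T₂) (δ : ℝ × ℝ) (y c : σ.Pnt) (t₁ : T₁) (x' : σ₁.Pnt)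
    (g : X.M → ℝ) : Prop where
  Q : t₁ ∈ σ₁.Q
  L : (σ₁.P t₁).bg.Lit (σ.P y.1.1).bg (S.φ₁ δ)
  L₀ : (σ₁.P x'.1.1).bg.Lit (σ.P c.1.1).bg (S.φ₁ δ)
  H : Ht (S.φ₁ δ) S.g₁ g (3 * S.Λ δ + 3)
  ag : Ag (S.φ₁ δ) {p | S.g₁ p < 3 * S.Λ δ + 3} c.1.2 x'.1.2
  F : ∃ a, Face σ₁ S.g₁ ∅ a ∧ a + 1 ≤ 2 * S.Λ δ ∧ 2 < S.Λ δ

theorem ev_dat (G : S.Geo σ σ₁ σ₂) (hP : S.Pre x z xx zz cc) (hδ : Tendsto δ l S.lg)
    (h : S.Nr k l δ y t₁ t₂ x z) : ∀ᶠ i in l, ∃ g, Dat S (δ i) (y i) (cc (δ i)) (t₁ i) (xx (δ i)) g ∧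
      Dat S.swap (δ i) (y i) (cc (δ i)) (t₂ i) (zz (δ i)) fun p => 4 * S.Λ (δ i) - g p := by
  obtain ⟨a, f1, f2, h1⟩ := (G.mt ∅).exists
  have h2 : Tendsto (fun i => S.Λ (δ i)) l atTop := tendsto_comap_iff.1 (hδ.mono_right inf_le_left)
  filter_upwards [hδ.eventually h1, hδ.eventually G.ht, hδ.eventually hP.ag, h.t,
    h.l₁.eventually (G.ok₁.opn.mem_nhds x.2.1), h.l₂.eventually (G.ok₂.opn.mem_nhds z.2.1),
    h2.eventually_gt_atTop 2, h2.eventually_ge_atTop ((a + 1) / 2)] with i k1 ⟨g, k2, k3⟩ k4 k5 k6 k7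
      k8 k9
  have a1 := (k1 _ k6 _ k7).2
  have a2 := (k1 _ (xx (δ i)).2.1 _ (zz (δ i)).2.1).2
  rw [← k5] at a1
  rw [← k4.2.2.1] at a2
  exact ⟨g, ⟨k6, a1.1.lit, a2.1.lit, k2, k4.2.2.2.1, a, f1, by linarith, k8⟩,
    ⟨k7, a1.2.lit, a2.2.lit, k3, k4.2.2.2.2, a, f2, show _ ≤ 2 * S.Λ _ by linarith, k8⟩⟩

theorem near_nr (G : S.Geo σ σ₁ σ₂) (hP : S.Pre x z xx zz cc) (hδ : Tendsto δ l S.lg)
    (h : S.Nr k l δ y t₁ t₂ x z) :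
    Tendsto (fun i => Nz s₁.bg.F.toPre {p | S.g₁ p ≤ 2 * S.Λ (δ i) + 1} k (σ₁.al (t₁ i)
      ((y i).1.2.pb (S.φ₁ (δ i))) - σ₁.al (xx (δ i)).1.1 (xx (δ i)).1.2)) l (𝓝 0) ∧
    Tendsto (fun i => Nz s₁.bg.F.toPre {p | S.g₁ p ≤ 2 * S.Λ (δ i) + 1} k
      (((y i).1.2.pb (S.φ₁ (δ i))).Φ - (xx (δ i)).1.2.Φ)) l (𝓝 0) := by
  have h₁ := G.ok₁.toOK
  obtain ⟨h1, h2, -⟩ := (dk_iff h₁ (cr_of_gd G.ok₁.gd)).1 ((hP.cx k).comp hδ)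
  have sa : ∀ y : σ₁.Pnt, Sm X₁.I (σ₁.al y.1.1 y.1.2) := fun y p =>
    sa_toLp fun a => ((adm_fam h₁ y.2.1 _).1 y.2.2.1).1.sa a p
  have D := ev_dat G hP hδ h
  refine ⟨near G.hg.1.sm.continuous (sa x) (fun _ => sa _) (D.mono fun i ⟨g, D, _⟩ => ⟨_, ?_,
      fun p hp => smo_a h₁ D.Q D.L p (D.H.src hp)⟩) (fun w hw => ?_) h1,
    near G.hg.1.sm.continuous x.2.2.1.sΦ (fun i => (xx _).2.2.1.sΦ) (D.mono fun i ⟨g, D, _⟩ => ⟨_, ?_,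
      fun p hp => (la_pb h₁ D.Q D.L (D.H.src hp)).sΦ⟩) (fun w hw => ?_) h2⟩
  · linarith [D.F.choose_spec.2.2]
  · exact tendsto_of_tendsto_of_tendsto_of_le_of_le tendsto_const_nhds (h.c₁ w hw)
      (fun _ => zero_le) fun i => lintegral_mono fun _ => le_self_add
  · linarith [D.F.choose_spec.2.2]
  · exact tendsto_of_tendsto_of_tendsto_of_le_of_le tendsto_const_nhds (h.c₁ w hw)
      (fun _ => zero_le) fun i => lintegral_mono fun _ => le_add_self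

theorem cp_half (G : S.Geo σ σ₁ σ₂) (hP : S.Pre x z xx zz cc) (hδ : Tendsto δ l S.lg)
    (h : S.Nr k l δ y t₁ t₂ x z) : ∃ y₁ : α → σ₁.Pnt,
      Tendsto (fun i => σ₁.dk k (y₁ i) x) l (𝓝 0) ∧ ∀ᶠ i in l, (y₁ i).1.1 = t₁ i ∧
        Ag (S.φ₁ (δ i)) {p | S.g₁ p < 2 * S.Λ (δ i) + 2} (y i).1.2 (y₁ i).1.2 := by
  have h₁ := G.ok₁.toOK
  have hβ := cr_of_gd G.ok₁.gd
  have D := ev_dat G hP hδ h
  obtain ⟨y₁, hy⟩ := ev_choice x (D.mono fun i ⟨g, D, _⟩ => exists_cut (q := 2 * S.Λ (δ i) + 3) h₁ D.Q D.L D.ag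
    G.ok.toOK D.L₀ D.H.src (cr_of_gd G.ok.gd) hβ G.hg.1 (by linarith [D.F.choose_spec.2.2]))
  obtain ⟨h1, h2, -⟩ := (dk_iff h₁ hβ).1 ((hP.cx k).comp hδ)
  obtain ⟨a1, a2⟩ := near_nr G hP hδ h
  obtain ⟨b1, b2⟩ := near_nr (geo_swap G) (pre_swap hP) hδ (nr_swap h)
  have sa : ∀ y : σ₁.Pnt, Sm X₁.I (σ₁.al y.1.1 y.1.2) := fun y p =>
    sa_toLp fun a => ((adm_fam h₁ y.2.1 _).1 y.2.2.1).1.sa a p
  have st := D.mono fun i ⟨g, D, D'⟩ => by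
    obtain ⟨a, f1, f2, f3⟩ := D.F
    obtain ⟨a', f1', f2', -⟩ := D'.F
    have f2' : a' + 1 ≤ 2 * S.Λ (δ i) := f2'
    have e1 := strip (k := k) h₁ D.Q D.L D.ag f1 D.H (u := 2 * S.Λ (δ i) + 1)
      (v := 2 * S.Λ (δ i) + 4) (by linarith) (by linarith)
    have e2 := strip (k := k) G.ok₂.toOK D'.Q D'.L D'.ag f1' D'.H (u := 2 * S.Λ (δ i) - 4)
      (v := 2 * S.Λ (δ i) - 1) (by linarith) (show _ ≤ 3 * S.Λ _ + 3 by linarith)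
    rw [show (fun p => 4 * S.Λ (δ i) - g p) ⁻¹' Ioo (2 * S.Λ (δ i) - 4) (2 * S.Λ (δ i) - 1) =
      g ⁻¹' Ioo (2 * S.Λ (δ i) + 1) (2 * S.Λ (δ i) + 4) from Set.ext fun p =>
        ⟨fun k => ⟨by linarith [k.2], by linarith [k.1]⟩,
          fun k => ⟨by linarith [k.2], by linarith [k.1]⟩⟩] at e2
    exact And.intro (And.intro f3 (And.intro (fun p hp => (smo_a h₁ D.Q D.L p (D.H.src hp)).sub
      (sa (xx (δ i)) p)) (e1.1.trans e2.1.symm))) (And.intro f3 (And.intro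
        (fun p hp => (la_pb h₁ D.Q D.L (D.H.src hp)).sΦ.sub ((xx (δ i)).2.2.1.sΦ p))
        (e1.2.trans e2.2.symm)))
  refine ⟨y₁, (dk_iff h₁ hβ).2 ⟨(est G.hg.1 (sa x) (fun _ => sa _) (st.mono fun _ k => k.1)
    a1 b1 h1).congr' (hy.mono fun i k => by simp only [k.1, k.2.2.1]; rfl), (est G.hg.1 x.2.2.1.sΦ
      (fun i => (xx _).2.2.1.sΦ) (st.mono fun _ k => k.2) a2 b2 h2).congr'
      (hy.mono fun i k => by simp only [k.2.2.2]; rfl), h.l₁.congr' (hy.mono fun i k => k.1.symm)⟩,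
    hy.mono fun i k => ⟨k.1, fun p hp => k.2.1 p (mem_ofPred.2 (by linarith [mem_ofPred.1 hp]))⟩⟩

variable (d ty X X₁ X₂ nc nr n₁ r₁ n₂ r₂ T T₁ T₂) in
/-- **GL-CP** -/
theorem cpStmt : CpStmt d ty X X₁ X₂ nc nr n₁ r₁ n₂ r₂ T T₁ T₂ := by
  intro s s₁ s₂ σ σ₁ σ₂ S G x z xx zz cc hP k _ ι l δ y t₁ t₂ hδ h
  obtain ⟨y₁, h1, h2⟩ := cp_half G hP hδ h
  obtain ⟨y₂, h3, h4⟩ := cp_half (geo_swap G) (pre_swap hP) hδ (nr_swap h)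
  refine ⟨y₁, y₂, h1, h3, ?_⟩
  filter_upwards [h2, h4, h.t] with i k1 k2 k3
  exact ⟨k1.1, k2.1, by rw [k1.1, k2.1, k3], k1.2, k2.2⟩

end Crest.Agent.X212.Gl50
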