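import Crest.Agent.X212.Gl50.Cp
import Crest.Agent.X212.Cut71.Hf

/-!
# Row 212, GL-S (helper50): GL-FACE, locality on a cell with an end
-/

set_option autoImplicit false
set_option linter.unusedSectionVars false
noncomputable section
open scoped Manifold ContDiff Topology InnerProductSpace ENNReal
open MeasureTheory Set Function Filter

namespace Crest.Agent.X212.Gl50
open An Sob92 Prm93 Pb50 Sw Cyf70 Gls64 Sw.En3
open M (Mf pm)
open Nd18 (Dp Jv fl tf)
open Cut71 (At)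

variable {κ lam ν : Type} [Fintype κ] [Fintype lam] [Fintype ν] [DecidableEq ν]
  {X : Mf 4} {nc nc' nr : ℕ}

theorem fl_nonneg {s : ℝ} (h : 1 / 2 ≤ s) : 0 ≤ fl s :=
  mul_nonneg (by linarith) (sub_nonneg.2 (Real.smoothTransition.le_one _))

theorem sub_fl {s : ℝ} (h : s < 1) : s - fl s ≤ 1 := by
  rcases le_total s (1 / 2) with k | k
  · rw [Nd18.fl_le k]; linarith
  · linarith [fl_nonneg k]

theorem lit_refl (b : Bg X.I X.M κ lam ν nc) : b.Lit b (OpenPartialHomeomorph.refl _) :=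
  ⟨⟨contMDiffOn_id, contMDiffOn_id, fun a x _ => by
      show mfderiv _ _ id x _ = _
      rw [mfderiv_id]; rfl, by simp⟩, fun _ _ _ _ => rfl, fun _ _ _ _ _ _ => rfl, rfl, rfl,
    fun _ _ => rfl, fun _ _ _ => rfl, fun _ _ _ => rfl, fun _ _ => rfl, fun _ _ => rfl⟩

section nk
variable {e : En3 κ lam ν} {b : Bg X.I X.M κ lam ν nc} {b' : Bg X.I X.M κ lam ν nc'} (K : Nk e b)
  {o : Bool} {x : X.M} {c c' : Cfg X.M κ ν}

/-- a bound of the finite side -/
def bd : ℝ := |K.p.getD 0| + |K.q.getD 0|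

theorem bd_nonneg : 0 ≤ bd K := add_nonneg (abs_nonneg _) (abs_nonneg _)

theorem ht_eq (hx : x ∈ K.dp 1) : ht K o x = pm o * K.tm x := by rw [ht, K.τ_eq hx]

theorem hg_ht : Hg b.F.toPre (ht K o) :=
  ⟨(contMDiff_const (I' := 𝓘(ℝ, ℝ)) (c := pm o)).smul K.sm_τ, fun a => by
  rw [show ht K o = pm o • K.τ from rfl, Pre.D_smul _ K.sm_τ]
  exact Cb_smul (Cb_const _) (K.cd_τ.2 a)⟩

variable {K} (h : K.Inf o)
include h

theorem dp_of {D t : ℝ} (k : bd K + D ≤ pm o * t) : t ∈ Dp K.p K.q D := by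
  have a1 := abs_nonneg (K.p.getD 0)
  have a2 := abs_nonneg (K.q.getD 0)
  rw [bd] at k
  cases o
  · have hp : K.p = none := h
    refine ⟨by simp [hp], fun a ha => ?_⟩
    rw [Option.mem_def.1 ha] at k
    simp only [pm, Bool.false_eq_true, if_false, Option.getD_some] at k
    linarith [neg_abs_le a]
  · have hq : K.q = none := h
    refine ⟨fun a ha => ?_, by simp [hq]⟩
    rw [Option.mem_def.1 ha] at k
    simp only [pm, if_true, Option.getD_some] at k
    linarith [le_abs_self a]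

theorem ht_le (hx : x ∉ K.dp 1) : ht K o x ≤ bd K + 1 := by
  have a1 := abs_nonneg (K.p.getD 0)
  have a2 := abs_nonneg (K.q.getD 0)
  rcases Nd18.not_Dp hx with ⟨a, h1, h2⟩ | ⟨a, h1, h2⟩ <;> cases o
  · exact (Option.some_ne_none _ (h1.symm.trans h)).elim
  · have hq : K.q = none := h
    simp only [ht, Nd18.Nk.τ, tf, bd, h1, hq, pm, if_true, Option.elim_some, Option.elim_none,
      Option.getD_some, Option.getD_none]
    linarith [sub_fl (s := K.tm x - a) (by linarith), le_abs_self a, abs_zero (α := ℝ)]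
  · have hp : K.p = none := h
    simp only [ht, Nd18.Nk.τ, tf, bd, h1, hp, pm, Bool.false_eq_true, if_false, Option.elim_some,
      Option.elim_none, Option.getD_some, Option.getD_none]
    linarith [sub_fl (s := a - K.tm x) (by linarith), neg_abs_le a, abs_zero (α := ℝ)]
  · exact (Option.some_ne_none _ (h1.symm.trans h)).elim

theorem ht_dp (hx : bd K + 1 < ht K o x) : x ∈ K.dp 1 := by_contra fun k => hx.not_ge (ht_le h k)

theorem ht_off (hx : x ∉ K.ψ.target) : ht K o x ≤ bd K + 1 := ht_le h (off K hx)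

/-- a high point lies on the neck -/
theorem ht_ψ (hx : bd K + 1 < ht K o x) : ∃ z ∈ K.ψ.source, K.ψ z = x ∧ pm o * z.2 = ht K o x :=
  have k := K.dp_sub one_pos (ht_dp h hx)
  ⟨_, K.ψ.map_target k, K.ψ.right_inv k, by rw [K.snd_symm k, ht_eq K (ht_dp h hx)]⟩

theorem ht_at {z : e.Y.M × ℝ} (hz : bd K + 1 ≤ pm o * z.2) :
    z ∈ K.ψ.source ∧ ht K o (K.ψ z) = pm o * z.2 := by
  have k := dp_of h hz
  have s := K.mem_src.2 (Nd18.Dp_sub one_pos k)
  exact ⟨s, by rw [ht_eq K (show K.tm _ ∈ _ by rwa [K.tm_ψ z s]), K.tm_ψ z s]⟩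

theorem ht_lt {z : e.Y.M × ℝ} (hz : z ∈ K.ψ.source) {a : ℝ} (h1 : bd K + 1 < a)
    (h2 : pm o * z.2 < a) : ht K o (K.ψ z) < a := by
  by_cases k : K.ψ z ∈ K.dp 1
  · rwa [ht_eq K k, K.tm_ψ z hz]
  · exact (ht_le h k).trans_lt h1

omit h in
theorem pm_win {s t : ℝ} (hs : s ∈ Icc (t - 1 / 2) (t + 1 / 2)) : |pm o * s - pm o * t| ≤ 1 / 2 := by
  cases o <;> simp only [pm, Bool.false_eq_true, if_false, if_true] <;> rw [abs_le] <;>
    constructor <;> linarith [hs.1, hs.2]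

omit h in
/-- the terms of a neck only see the slices near the point -/
theorem terms {K' : Nk e b'} (g : K'.ng = K.ng) (ha : x ∈ K.dp 1 →
      ∀ s ∈ Icc (K.tm x - 1 / 2) (K.tm x + 1 / 2), ∀ y, At id c c' (K.ψ (y, s))) :
    K.rad c x = K'.rad c' x ∧ K.hl c x = K'.hl c' x ∧ ∀ T, K.ms T c x = K'.ms T c' x := by
  by_cases hx : x ∈ K.dp 1
  · have k := K.dp_sub one_pos hx
    have := (Cut71.Mt.terms (K := K') (K' := K) (c := c') (c' := c) (t := K.tm x) (δ := 0)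
      ⟨Nd18.Dp_sub one_pos hx, by simpa [Nd18.Nk.J, ng_p g, ng_q g] using Nd18.Dp_sub one_pos hx,
        by simp [Nd18.Nk.cut, ng_p g, ng_q g], fun _ s hs => by
          rw [add_zero, Nk.pb, Nk.pb, ng_ψ g]
          exact YC.ext (funext fun j => funext fun y => (ha hx s hs y).1 _)
            (funext fun y => (ha hx s hs y).2)⟩ (K.ψ.symm x).1)
    rwa [add_zero, ng_ψ g, ← K.snd_symm k, Prod.mk.eta, K.ψ.right_inv k] at this
  · have hx' : x ∉ K'.dp 1 := by simpa only [Nd18.Nk.dp, ng_p g, ng_q g, ng_tm g] using hx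
    simp only [Nk.rad, Nk.hl, Nk.ms, K.χ_zero hx, K'.χ_zero hx', K.ext_zero _ hx, K'.ext_zero _ hx',
      zero_mul, zero_smul, smul_zero, implies_true, and_self]

end nk

variable {d : Dt κ lam ν} {N : Type} [Fintype N] {ty : N → d.𝓔}
  {T : Type} [NormedAddCommGroup T] [NormedSpace ℝ T] [FiniteDimensional ℝ T]
  {s : Pz X 0 fun i => d.e (ty i)} {σ : Cel s nc nr T}

theorem JC.sp {Q : Set T} {f : T → R4 → Eu ν} (h : JC Q f) :
    ∀ᶠ R in atTop, ∀ t ∈ Q, Kop92.Sp R (f t) := by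
  obtain ⟨-, K, h1, h2⟩ := h
  obtain ⟨R, hR⟩ := h1.isBounded.exists_norm_le
  exact (eventually_ge_atTop R).mono fun R' k t ht y hy => h2 t ht y fun m => by linarith [hR y m]

/-- the terms at a point of the neck `i` -/
theorem at_nk {P : Pc d X nc ty} (hP : P.OK) {i : N} {K : Nk (d.e (ty i)) P.bg} (hK : K ∈ P.nk i)
    {x : X.M} (hx : x ∈ K.ψ.target) (c : Cfg X.M κ ν) : P.p0.D c x = K.rad c x ∧
      P.p0.C c x = K.hl c x ∧
      ∀ w, P.tm w c x = P.fo w x + (d.yt w (ty i)).elim 0 fun T => K.ms T c x :=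
  ⟨sum_nk hP.toOK hK hx (fun _ K' => K'.rad c x) fun j K' h => by
      rw [Nk.rad, K'.χ_zero h, zero_mul, zero_smul],
    sum_nk hP.toOK hK hx (fun _ K' => K'.hl c x) fun j K' h => by
      rw [Nk.hl, K'.ext_zero _ h, smul_zero],
    fun w => congrArg (_ + ·) (sum_nk hP.toOK hK hx
      (fun j K' => (d.yt w (ty j)).elim 0 fun T => K'.ms T c x) fun j K' h =>
        elim_zero fun T _ => by rw [Nk.ms, K'.ext_zero _ h, smul_zero])⟩

variable (h : σ.toFam.OK) {i : N} {o : Bool} {K : Nk (d.e (ty i)) s.bg} (hK : K ∈ s.nk i)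
  (ho : K.Inf o) {J : Finset d.W} {a : ℝ} {t t' : T} (ht : t ∈ σ.Q) {c c' : Cfg X.M κ ν} {x : X.M}
include h hK ho ht

theorem face_lft (ha : bd K < a) (hc : Ag id {x | Gls64.ht K o x < a + 2} c c')
    (hx : Gls64.ht K o x < a) : EqF (σ.P t) (σ.P t) J c c' x x := by
  have ev : ∀ᶠ y in 𝓝 x, At (OpenPartialHomeomorph.refl _) c c' y :=
    mem_of_superset ((isOpen_lt (hg_ht K).sm.continuous continuous_const).mem_nhds
      (show Gls64.ht K o x < a + 2 by linarith)) hc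
  obtain ⟨K₀, h0, g0⟩ := h.en t ht i K hK
  have tr := fun j (K' : Nk (d.e (ty j)) (σ.P t).bg) (hK' : K' ∈ (σ.P t).nk j) =>
    terms (c := c) (c' := c') (x := x) (K := K') rfl fun k u hu y => hc _ (by
      have m := src K' (half_J K' k hu) y
      by_cases e : j = i
      · subst e
        obtain rfl := Option.mem_unique h0 hK'
        rw [ng_ψ g0] at m ⊢
        rw [ng_tm g0] at hu
        rw [ht_eq K (by simpa only [Nd18.Nk.dp, ng_p g0, ng_q g0, ng_tm g0] using k)] at hx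
        exact ht_lt ho m (by linarith) (by linarith [(abs_le.1 (pm_win (o := o) hu)).2])
      · exact (ht_off ho fun m' => disjoint_left.1 ((h.ok t ht).dj e K' hK' K₀ h0)
          (K'.ψ.map_source m) (ng_ψ g0 ▸ m')).trans_lt (by linarith))
  exact ⟨congrArg₂ (· - ·) (Cut71.eD_φ (lit_refl _) trivial ev)
      (Finset.sum_congr rfl fun j _ => elim_congr fun K' k => (tr j K' k).1),
    congrArg₂ (· - ·) (Cut71.eC_φ (lit_refl _) trivial ev)
      (Finset.sum_congr rfl fun j _ => elim_congr fun K' k => (tr j K' k).2.1),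
    fun w _ => congrArg (_ + ·) (Finset.sum_congr rfl fun j _ => elim_congr fun K' k =>
      elim_congr fun T _ => (tr j K' k).2.2 T)⟩

theorem face_rgt (ht' : t' ∈ σ.Q) (ha : bd K + 2 ≤ a)
    (hf : ∀ w ∈ J, ∃ r ≤ a, ∀ t ∈ σ.Q, ∀ x ∉ s.core r, (σ.P t).fo w x = 0)
    (hc : Ag id {x | a - 2 < Gls64.ht K o x} c c') (hx : a < Gls64.ht K o x) :
    EqF (σ.P t) (σ.P t') J c c' x x := by
  obtain ⟨K₀, h0, g0⟩ := h.en t ht i K hK
  obtain ⟨K₁, h1, g1⟩ := h.en t' ht' i K hK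
  obtain ⟨z, hz, rfl, e⟩ := ht_ψ ho (x := x) (by linarith)
  have ev : ∀ᶠ y in 𝓝 z, At K₁.ψ (K₀.pb c) c' y := by
    have := (K.ψ.continuousAt hz).eventually ((isOpen_lt continuous_const
      (hg_ht K).sm.continuous).mem_nhds (show a - 2 < Gls64.ht K o (K.ψ z) by linarith))
    rw [Nk.pb, ng_ψ g0, ng_ψ g1]
    exact this.mono fun y hy => hc _ hy
  have z0 : z ∈ K₀.ψ.source := ng_ψ g0 ▸ hz
  have z1 : z ∈ K₁.ψ.source := ng_ψ g1 ▸ hz
  have e1 := (eD_ψ K₀ z0 c).trans (Cut71.eD_φ (Cut71.nk_lit K₁) z1 ev)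
  have e2 := (eC_ψ K₀ z0 c).trans (Cut71.eC_φ (Cut71.nk_lit K₁) z1 ev)
  have e3 := at_nk (h.ok t ht) h0 (K₀.ψ.map_source z0) c
  have e4 := at_nk (h.ok t' ht') h1 (K₁.ψ.map_source z1) c'
  have e5 := terms (c := c) (c' := c') (x := K.ψ z) (g1.trans g0.symm) fun _ u hu y => hc _ (by
    rw [ng_tm g0, K.tm_ψ z hz] at hu
    have := (abs_le.1 (pm_win (o := o) hu)).1
    rw [ng_ψ g0]
    exact lt_of_lt_of_eq (by linarith) (ht_at ho (z := (y, u)) (by linarith)).2.symm)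
  rw [ng_ψ g0] at e1 e2 e3
  rw [ng_ψ g1] at e1 e2 e4
  refine ⟨by rw [e1, e3.1, e4.1, e5.1], by rw [e2, e3.2.1, e4.2.1, e5.2.1], fun w hw => ?_⟩
  obtain ⟨r, r1, r2⟩ := hf w hw
  have m : K.ψ z ∉ s.core r := fun k => k i o K hK ho ⟨z, ⟨trivial, K.mem_src.1 hz,
    show r < _ by linarith⟩, rfl⟩
  rw [e3.2.2, e4.2.2, r2 t ht _ m, r2 t' ht' _ m]
  exact congrArg _ (elim_congr fun T _ => e5.2.2 T)

theorem face_fr (hx : bd K + 1 < Gls64.ht K o x) : (∀ a b, σ.S t x a b = s.bg.B.P a b x ∧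
    σ.Si t x a b = s.bg.B.P a b x) ∧ ∀ a, (σ.P t).bg.F.dv a x = s.bg.F.dv a x ∧
      (σ.P t).bg.F.e a x = s.bg.F.e a x := by
  obtain ⟨K₀, -, g0⟩ := h.en t ht i K hK
  obtain ⟨z, hz, rfl, -⟩ := ht_ψ ho hx
  refine ⟨fun a b => ⟨S_nk h ht hK hz a b, Si_nk h ht hK hz a b⟩, fun a => ⟨?_, ng_e g0 a hz⟩⟩
  have := Met55.iso_dv K₀.iso (ng_ψ g0 ▸ hz) a
  rw [ng_ψ g0] at this
  exact this.symm.trans (Met55.iso_dv K.iso hz a)

omit hK ho ht in
theorem face_cut {g : X.M → ℝ} (hg : Continuous g) (J : Finset d.W) : ∀ᶠ a in atTop, ∀ t ∈ σ.Q,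
    ∀ c c', (σ.P t).bg.Adm c' → Ag id {x | g x < a + 2} c c' → EqS (σ.P t) (σ.P t) J id c c' := by
  obtain ⟨t₀, h0⟩ := h.ne
  have C := fun j => (h.ok t₀ h0).bg.ct j
  have h1 : ∀ j, ∀ᶠ R in atTop, Kop92.Sp R ((σ.P t₀).bg.ct j).ρ := fun j => by
    obtain ⟨R, hR⟩ := (C j).cρ.isCompact.isBounded.exists_norm_le
    exact (eventually_ge_atTop R).mono fun R' k y hy =>
      image_eq_zero_of_notMem_tsupport fun m => by linarith [hR y m]
  obtain ⟨R, hR⟩ := (eventually_all.2 fun j => (h1 j).and ((JC.sp (h.η0 j)).and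
    ((eventually_all_finset J).2 fun w _ => JC.sp (h.η w j)))).exists
  have h2 : ∀ j, ∀ᶠ a in atTop, ∀ y, ‖y‖ ≤ R → g (((σ.P t₀).bg.ct j).Ξ y) < a + 2 := fun j => by
    obtain ⟨M, hM⟩ := (isCompact_closedBall (0 : R4) R).bddAbove_image
      (hg.comp (C j).sm.continuous).continuousOn
    exact (eventually_ge_atTop M).mono fun a k y hy => by
      linarith [show g _ ≤ M from hM ⟨y, mem_closedBall_zero_iff.2 hy, rfl⟩]
  filter_upwards [eventually_all.2 h2] with a ha t ht c c' hc e j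
  have k := fun η (hη : Kop92.Sp R η) => Cut71.lη_φ (lit_refl (σ.P t).bg) (h.ok t ht).bg
    (h.ok t ht).bg hc (c := c) (j := j) (subset_univ _) (fun _ => rfl) rfl
    ((h.ct t₀ h0 t ht j).2 ▸ (hR j).1) hη fun y hy => e _ ((h.ct t₀ h0 t ht j).1 ▸ ha j y hy)
  exact ⟨k _ ((hR j).2.1 t ht), fun w hw => k _ ((hR j).2.2 w hw t ht)⟩

omit h hK ho ht in
variable (d ty X nc nr T) in
/-- **GL-FACE** -/
theorem faceStmt : FaceStmt d ty X nc nr T := by
  intro s σ h i o K hK ho J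
  have h := h.toOK
  have hg := hg_ht (o := o) K
  choose r hr using h.cfo
  filter_upwards [eventually_ge_atTop (bd K + 5), face_cut h hg.sm.continuous J,
    (eventually_all_finset J).2 fun w _ => eventually_ge_atTop (r w)] with a h1 h2 h3
  refine ⟨hg.sm, hg.cb, fun a' k t ht c c' _ _ e x hx => face_lft h hK ho ht (by linarith) e hx,
    fun a' k t ht t' ht' c c' _ _ e x hx => face_rgt h hK ho ht ht' (by linarith)
      (fun w hw => ⟨_, (h3 w hw).trans k, hr w⟩) e hx,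
    fun t ht c c' _ hc => h2 t ht c c' hc, fun t ht x hx => face_fr h hK ho ht (by linarith),
    fun t ht => ?_⟩
  have m : {x | a - 3 ≤ Gls64.ht K o x} ⊆ K.ψ.target := fun x hx =>
    K.dp_sub one_pos (ht_dp ho (by linarith [mem_ofPred.1 hx]))
  rw [← Measure.restrict_restrict_of_subset m, Gr93.μ_nk h ht hK, Measure.restrict_restrict_of_subset m]

end Crest.Agent.X212.Gl50
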