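import Crest.Agent.X212.Gl67.Jet
import Crest.Agent.X212.Gls64.Mod
import Crest.Agent.X212.Gr93.Row

/-!
# Row 212, GL-S (helper50): local norms, cutting with functions of a height
-/

set_option autoImplicit false
set_option linter.unusedSectionVars false
noncomputable section
open scoped Manifold ContDiff Topology InnerProductSpace ENNReal
open MeasureTheory Set Function Filter

namespace Crest.Agent.X212.Gl50
open An Sob92 Prm93 Gl67 Pb50
open Gls64 (Hg)
open M (Mf)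
open Neck67 (dn up cS)

variable {X X₁ : Mf 4} {ι α : Type} [Fintype ι] {F F' : Pre X.I X.M ι} {F₁ : Pre X₁.I X₁.M ι}
  {V : Type} [NormedAddCommGroup V] [NormedSpace ℝ V]
  {W : Type} [NormedAddCommGroup W] [InnerProductSpace ℝ W]
  {k : ℕ} {u : X.M → V} {x : X.M} {A O : Set X.M} {g : X.M → ℝ} {l : Filter α}

/-- the squared norm over `A` -/
abbrev Nz (F : Pre X.I X.M ι) (A : Set X.M) (k : ℕ) (u : X.M → V) : ℝ≥0∞ := N F 0 A k u

theorem Nz_def : Nz F A k u = ∫⁻ x in A, ENNReal.ofReal (J F k u x) ∂F.μ := by simp [N]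

theorem enorm_sq (v : V) : ‖v‖ₑ ^ 2 = ENNReal.ofReal (‖v‖ ^ 2) := by
  rw [← ofReal_norm, ENNReal.ofReal_pow (norm_nonneg _)]

theorem J_D (a : ι) : J F k (F.D a u) x ≤ J F (k + 1) u x :=
  (Finset.single_le_sum (f := fun a => J F k (F.D a u) x) (fun _ _ => J_nonneg k _)
    (Finset.mem_univ a)).trans (le_add_of_nonneg_left (sq_nonneg _))

theorem word_le_J : ∀ (w : List ι) {k : ℕ} {u : X.M → V}, w.length ≤ k →
    ‖F.Dw w u x‖ ^ 2 ≤ J F k u x
  | [], 0, _, _ => le_rfl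
  | [], _ + 1, _, _ => le_add_of_nonneg_right (Finset.sum_nonneg fun _ _ => J_nonneg _ _)
  | a :: w, _ + 1, _, h => (word_le_J w (Nat.le_of_succ_le_succ h)).trans (J_D a)

theorem word_le {w : List ι} (h : w.length ≤ k) :
    ∫⁻ x in A, ‖F.Dw w u x‖ₑ ^ 2 ∂F.μ ≤ Nz F A k u := by
  rw [Nz_def]
  exact lintegral_mono fun x => (enorm_sq _).trans_le (ENNReal.ofReal_le_ofReal (word_le_J w h))

theorem aem_J (hA : MeasurableSet A) (hu : SmO X.I A u) (k : ℕ) :
    AEMeasurable (fun x => ENNReal.ofReal (J F k u x)) (F.μ.restrict A) :=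
  (ContinuousOn.aemeasurable (fun x hx => (J_cont k hu x hx).continuousWithinAt) hA).ennreal_ofReal

theorem Nz_succ (hA : MeasurableSet A) (hu : SmO X.I A u) :
    Nz F A (k + 1) u = Nz F A 0 u + ∑ a, Nz F A k (F.D a u) := by
  simp only [Nz_def]
  rw [← lintegral_finsetSum' _ fun a _ => aem_J hA (hu.D a) k, ← lintegral_add_left' (aem_J hA hu 0)]
  refine lintegral_congr fun x => ?_
  rw [← ENNReal.ofReal_sum_of_nonneg fun _ _ => J_nonneg k _,
    ← ENNReal.ofReal_add (J_nonneg 0 _) (Finset.sum_nonneg fun _ _ => J_nonneg k _)]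
  rfl

theorem Nz_tendsto {A : α → Set X.M} (k : ℕ) : ∀ {u : α → X.M → V},
    (∀ᶠ i in l, MeasurableSet (A i) ∧ SmO X.I (A i) (u i)) → (∀ w : List ι, w.length ≤ k →
      Tendsto (fun i => ∫⁻ x in A i, ‖F.Dw w (u i) x‖ₑ ^ 2 ∂F.μ) l (𝓝 0)) →
    Tendsto (fun i => Nz F (A i) k (u i)) l (𝓝 0) := by
  have h0 : ∀ {u : α → X.M → V}, Tendsto (fun i => ∫⁻ x in A i, ‖F.Dw [] (u i) x‖ₑ ^ 2 ∂F.μ) l (𝓝 0) →
      Tendsto (fun i => Nz F (A i) 0 (u i)) l (𝓝 0) := fun h =>
    h.congr fun i => by simp only [Nz_def, enorm_sq]; rfl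
  induction k with
  | zero => exact fun _ h => h0 (h [] le_rfl)
  | succ k ih =>
    intro u hu h
    have := (h0 (h [] (by simp))).add (tendsto_finsetSum Finset.univ fun a _ =>
      ih (u := fun i => F.D a (u i)) (hu.mono fun i hi => ⟨hi.1, hi.2.D a⟩)
        fun w hw => h (a :: w) (Nat.succ_le_succ hw))
    rw [Finset.sum_const_zero, add_zero] at this
    exact this.congr' (hu.mono fun i hi => (Nz_succ hi.1 hi.2).symm)

theorem Nz_univ (hu : FL F k u) : Nz F univ k u = ENNReal.ofReal (N2 F k u) := by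
  obtain ⟨h1, h2⟩ := J_int (F := F) k hu
  rw [N2, ← h2, ofReal_integral_eq_lintegral_ofReal h1 (.of_forall fun _ => J_nonneg k u), Nz_def,
    Measure.restrict_univ]

theorem FL_of_Nz (k : ℕ) : ∀ {u : X.M → V}, Sm X.I u → Nz F univ k u ≠ ⊤ → FL F k u := by
  have h0 : ∀ {k} {u : X.M → V}, Sm X.I u → Nz F univ k u ≠ ⊤ → MemLp u 2 F.μ := fun hu h => by
    refine (memLp_two_iff_integrable_sq_norm hu.continuous.aestronglyMeasurable).2
      ⟨(hu.continuous.norm.pow 2).aestronglyMeasurable, ?_⟩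
    have := (word_le (w := []) (Nat.zero_le _)).trans_lt h.lt_top
    rw [Measure.restrict_univ] at this
    simpa [HasFiniteIntegral, Pre.Dw] using this
  induction k with
  | zero => exact h0
  | succ k ih =>
    exact fun hu h => ⟨h0 hu h, fun a => ih (F.sm_D hu a) (ne_top_of_le_ne_top h (by
      simp only [Nz_def]
      exact lintegral_mono fun x => ENNReal.ofReal_le_ofReal (J_D a)))⟩

theorem hi_iff : Hi F u ↔ Sm X.I u ∧ ∀ k, Nz F univ k u ≠ ⊤ := and_congr_right fun hu =>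
  forall_congr' fun k => ⟨fun h => Nz_univ h ▸ ENNReal.ofReal_ne_top, FL_of_Nz k hu⟩

theorem nrm_iff {u : α → X.M → W} (hu : ∀ᶠ i in l, Hi F (u i)) :
    Tendsto (fun i => F.nrm k (u i)) l (𝓝 0) ↔ Tendsto (fun i => Nz F univ k (u i)) l (𝓝 0) := by
  refine ⟨fun h => ?_, fun h => ?_⟩
  · have := ENNReal.tendsto_ofReal (h.pow 2)
    rw [zero_pow two_ne_zero, ENNReal.ofReal_zero] at this
    exact this.congr' (hu.mono fun i hi => by simp only [Nz_univ (hi.2 k), nrm_sq])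
  · have := ((ENNReal.tendsto_toReal ENNReal.zero_ne_top).comp h).sqrt
    rw [ENNReal.toReal_zero, Real.sqrt_zero] at this
    exact this.congr' (hu.mono fun i hi => by
      simp only [comp, Nz_univ (hi.2 k), nrm_eq, ENNReal.toReal_ofReal (n2_nonneg _ _)])

theorem J_frame : ∀ (k : ℕ) {u v : X.M → V}, (∀ᶠ y in 𝓝 x, ∀ a, F.e a y = F'.e a y) → u =ᶠ[𝓝 x] v →
    J F k u x = J F' k v x
  | 0, _, _, _, h => by simp only [J, h.self_of_nhds]
  | k + 1, _, _, e, h => congrArg₂ (· + ·) (by rw [h.self_of_nhds]) (Finset.sum_congr rfl fun a _ =>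
      J_frame k e ((e.and h.eventuallyEq_nhds).mono fun y hy => by
        rw [Pre.D_def, dv_congr hy.2, Pre.D_def, dv, dv, hy.1 a]))

theorem Nz_frame {v : X.M → V} (hA : IsOpen A) (e : ∀ y ∈ A, ∀ a, F.e a y = F'.e a y)
    (hμ : F.μ.restrict A = F'.μ.restrict A) (h : EqOn u v A) : Nz F A k u = Nz F' A k v := by
  rw [Nz_def, Nz_def, hμ]
  exact setLIntegral_congr_fun hA.measurableSet fun x hx => congrArg _ (J_frame k
    ((hA.eventually_mem hx).mono e) (h.eventuallyEq_of_mem (hA.mem_nhds hx)))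

theorem Hi.sum {β : Type} (s : Finset β) {f : β → X.M → V} (h : ∀ b, Hi F (f b)) :
    Hi F fun x => ∑ b ∈ s, f b x := by
  rw [← Finset.sum_fn]
  exact Finset.sum_induction _ _ (fun _ _ => Hi.add) Hi.zero fun a _ => h a

theorem Hi.smul {f : X.M → ℝ} (hf : F.Cb f) (h : Hi F u) : Hi F fun x => f x • u x :=
  h.bil (ContinuousLinearMap.lsmul ℝ ℝ) hf

theorem Hi.sub {v : X.M → V} (h : Hi F u) (h' : Hi F v) : Hi F (u - v) := by
  rw [sub_eq_add_neg]
  exact h.add (h'.clm (-ContinuousLinearMap.id ℝ V))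

theorem Hi.dom (h : Dom F F') (hu : Hi F u) : Hi F' u := by
  obtain ⟨⟨B, h1, h2⟩, c, hc⟩ := h
  refine ⟨hu.1, fun k => ?_⟩
  have h0 : ∀ {u : X.M → V}, Hi F u → MemLp u 2 F'.μ := fun hu =>
    (MemLp.smul_measure (hu.2 0) (c := c) ENNReal.coe_ne_top).mono_measure hc
  induction k generalizing u with
  | zero => exact h0 hu
  | succ k ih =>
    refine ⟨h0 hu, fun a => ih (u := F'.D a u) ?_⟩
    rw [h1.D]
    exact Hi.sum _ fun b => Hi.smul (h2 a b) (hu.D b)

theorem hg_cmp (h : Cmp F F') (hg : Hg F g) : Hg F' g := ⟨hg.sm, fun a => by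
  obtain ⟨B, h1, h2⟩ := h.1.1
  rw [← h.Cb_iff, h1.D]
  exact Cb_sum _ fun b _ => Cb_smul (h2 a b) (hg.cb b)⟩

theorem sm_cut (hg : Sm X.I g) {q a : ℝ} (h : q < a) (hu : SmO X.I {x | g x < a} u) :
    Sm X.I fun x => dn q 1 (g x) • u x := fun x => by
  by_cases hx : g x < a
  · exact (Gls64.sm_comp hg (Neck67.sm_dn le_rfl q).cd x).smul (hu x hx)
  · refine (contMDiffAt_const (c := (0 : V))).congr_of_eventuallyEq ?_
    filter_upwards [(isOpen_lt continuous_const hg.continuous).mem_nhds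
      (show q < g x by linarith)] with y hy
    rw [Neck67.dn_zero one_pos (le_of_lt hy), zero_smul]

theorem Nz_mul (hg : Hg F g) (k : ℕ) : ∃ C ≠ (⊤ : ℝ≥0∞), ∀ b, ContDiff ℝ ∞ b →
    Neck67.Bd (k + 1) b (cS k) → ∀ B : Set ℝ, IsClosed B → (∀ t ∉ B, b t = 0) → ∀ u : X.M → V,
      Sm X.I u → Nz F univ k (fun x => b (g x) • u x) ≤ C * Nz F (g ⁻¹' B) k u := by
  obtain ⟨C, -, hC⟩ := hg.cb_comp k
  refine ⟨ENNReal.ofReal ((2 * Fintype.card ι + 3) ^ k * (C * cS k) ^ 2), ENNReal.ofReal_ne_top,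
    fun b hb h B hB h0 u hu => ?_⟩
  have c := hB.preimage hg.sm.continuous
  rw [Nz, N_supp (A := g ⁻¹' B) (closure_minimal (fun x hx => by_contra fun k =>
    hx (by simp only [h0 _ k, zero_smul])) c)]
  exact N_smul c.measurableSet (Gls64.sm_comp hg.sm hb) (hC _ _ hb h.of_succ) hu

/-- cutting off the far part -/
theorem Nz_cut (hg : Hg F g) (k : ℕ) : ∃ C ≠ (⊤ : ℝ≥0∞), ∀ q a (u : X.M → V), q + 2 < a →
    SmO X.I {x | g x < a} u →
      Nz F univ k (fun x => dn q 1 (g x) • u x) ≤ C * Nz F {x | g x ≤ q} k u := by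
  obtain ⟨C, h1, h2⟩ := Nz_mul (V := V) hg k
  refine ⟨C, h1, fun q a u h hu => ?_⟩
  have h0 : ∀ t ∉ Iic q, dn q 1 t = 0 := fun t ht => Neck67.dn_zero one_pos (not_le.1 ht).le
  have := h2 _ (Neck67.sm_dn le_rfl q).cd (Neck67.bd_dn k le_rfl q) _ isClosed_Iic h0 _
    (sm_cut hg.sm h hu)
  refine (le_of_eq (congrArg _ (funext fun x => ?_))).trans (this.trans_eq (congrArg _ (N_congr
    (isClosed_Iic.preimage hg.sm.continuous).measurableSet fun x hx => ?_)))
  · by_cases hx : g x ≤ q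
    · rw [Neck67.dn_one (q := q + 2) one_pos (by linarith), one_smul]
    · rw [h0 _ hx, zero_smul, zero_smul]
  · filter_upwards [(isOpen_lt hg.sm.continuous continuous_const).mem_nhds
      (show g x < q + 1 by linarith [show g x ≤ q from hx])] with y hy
    rw [Neck67.dn_one one_pos (by linarith [show g y < q + 1 from hy]), one_smul]

/-- the tails -/
theorem Nz_tail (hg : Hg F g) (hu : Hi F u) (k : ℕ) :
    Tendsto (fun p => Nz F univ k fun x => up p 1 (g x) • u x) atTop (𝓝 0) := by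
  obtain ⟨C, h1, h2⟩ := Nz_mul (V := V) hg k
  have m : ∀ p, MeasurableSet (g ⁻¹' Ici p) := fun p =>
    (isClosed_Ici.preimage hg.sm.continuous).measurableSet
  have h3 := tendsto_measure_iInter_atTop (s := fun p => g ⁻¹' Ici p)
    (μ := F.μ.withDensity fun x => ENNReal.ofReal (J F k u x)) (fun p => (m p).nullMeasurableSet)
    (fun _ _ h => preimage_mono (Ici_subset_Ici.2 h)) ⟨0, by
      rw [withDensity_apply _ (m 0), ← Nz_def]
      exact ne_top_of_le_ne_top ((hi_iff.1 hu).2 k) (N_mono (subset_univ _))⟩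
  rw [show ⋂ p, g ⁻¹' Ici p = ∅ from eq_empty_of_forall_notMem fun x hx => by
    linarith [show g x + 1 ≤ g x from mem_iInter.1 hx _], measure_empty] at h3
  have h4 := ENNReal.Tendsto.const_mul (a := C) h3 (.inr h1)
  rw [mul_zero] at h4
  refine tendsto_of_tendsto_of_tendsto_of_le_of_le tendsto_const_nhds h4 (fun _ => zero_le)
    fun p => (h2 _ (Neck67.sm_up le_rfl p).cd (Neck67.bd_up k le_rfl p) _ isClosed_Ici
      (fun t ht => Neck67.up_zero one_pos (not_le.1 ht).le) _ hu.1).trans_eq ?_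
  simp only [comp, withDensity_apply _ (m p), Nz_def]

/-- transport of the part below the height `q` -/
theorem hi_pull {φ : OpenPartialHomeomorph X₁.M X.M} (h : Iso F₁ F φ) {g : X₁.M → ℝ} (hg : Hg F₁ g)
    {q a : ℝ} (hs : {x | g x < a} ⊆ φ.source) (hq : q + 2 < a) (hu : Hi F u) :
    Hi F₁ fun x => dn q 1 (g x) • u (φ x) := by
  have s1 : SmO X₁.I {x | g x < a} (u ∘ φ) := fun x hx => SmO.comp h hu.1 x (hs hx)
  refine hi_iff.2 ⟨sm_cut hg.sm (by linarith) s1, fun k => ?_⟩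
  obtain ⟨C, h1, h2⟩ := Nz_cut (V := V) hg k
  refine ne_top_of_le_ne_top (ENNReal.mul_ne_top h1 ((hi_iff.1 hu).2 k))
    ((h2 q a _ hq s1).trans (mul_le_mul_right ((N_mono fun x hx => hs (show g x < a by
      linarith [show g x ≤ q from hx])).trans ((N_iso h continuous_zero φ.open_source.measurableSet
      φ.open_target.measurableSet Subset.rfl Subset.rfl (fun x hx => iff_of_true hx (φ.map_source hx))
      (fun _ _ => rfl) hu.1).trans_le (N_mono (subset_univ _)))) _))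

end Crest.Agent.X212.Gl50
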