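import Crest.Agent.X212.Gl50.Pre
import Crest.Agent.X212.Cut71.Main

/-!
# Row 212, GL-S (helper50): GL-MT, the equations correspond
-/

set_option autoImplicit false
set_option linter.unusedSectionVars false
noncomputable section
open scoped Manifold ContDiff Topology InnerProductSpace ENNReal
open MeasureTheory Set Function Filter

namespace Crest.Agent.X212.Gl50
open An Sob92 Prm93 Pb50 Sw Cyf70 Gls64 Sw.En3
open M (Mf pm)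
open Cut71 (At Hf dep half_nk meas_thick χ_zero' tm_tgt off_deep Fo)

variable {κ lam ν : Type} [Fintype κ] [Fintype lam] [Fintype ν] [DecidableEq ν]
  {X X₁ X₂ : Mf 4} {nc nr n₁ r₁ n₂ r₂ : ℕ} {d : Dt κ lam ν} [Fintype d.𝓔] {Sl : Type} [Fintype Sl]

section half
variable {P : PcS d Sl X nc} {P' : PcS d Sl X₁ n₁} {ε : d.𝓔} {a a' : Sl} {b : Bool}
  {φ : OpenPartialHomeomorph X₁.M X.M} {δ τ A : ℝ} {O : d.𝓔 × Sl → Prop} {π : d.𝓔 × Sl → Sl}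
  {cc : Fin n₁ → Fin nc} {J : Finset d.W} {K : Nk (d.e ε) P.bg} {K' : Nk (d.e ε) P'.bg}
  (h : Hf P P' ε a a' b φ δ O π cc J K K' τ) (hA : A ≤ pm b * (τ - δ)) {x : X₁.M}
  (hx : ht K' b x < A) (hb : bd K' < A) {c : Cfg X.M κ ν} {c' : Cfg X₁.M κ ν}
  (e0 : Ag φ {x | ht K' b x < A + 2} c c')
include h hA hx

theorem dep_le : dep b δ K' τ x ≤ 0 := by
  by_contra k
  rw [ht_eq K' (Nd18.Dp_mono (by norm_num) (deep_sub K' (h.deep_of (t := K'.tm x)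
    (by linarith [not_le.1 k]))))] at hx
  exact k (by rw [dep, mul_sub]; linarith)

include hb e0

/-- sums over the necks -/
theorem sum_ag {V : Type} [AddCommMonoid V]
    (f : ∀ j : d.𝓔 × Sl, Nk (d.e j.1) P.bg → V) (f' : ∀ j : d.𝓔 × Sl, Nk (d.e j.1) P'.bg → V)
    (hf : ∀ j K₁, K₁.χ (φ x) = 0 → f j K₁ = 0) (hf' : ∀ j K₁, K₁.χ x = 0 → f' j K₁ = 0)
    (e : ∀ ε₁ a₁ a₁' K₁ K₁' y t δ₁, Cut71.Mt K₁ K₁' c c' t δ₁ → x = K₁'.ψ (y, t) →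
      φ x = K₁.ψ (y, t + δ₁) → f' (ε₁, a₁') K₁' = f (ε₁, a₁) K₁) :
    ∑ j, (P'.nk j).elim 0 (f' j) = ∑ j, (P.nk j).elim 0 (f j) := by
  by_cases k : x ∈ P'.thick 1
  · have k' := (h.thick le_rfl (by norm_num) k).2
    rw [(meas_thick _ one_pos).1] at k k'
    rw [Finset.sum_eq_zero fun j _ => elim_zero fun K₁ h1 => hf' j K₁ (χ_zero' K₁ (k j K₁ h1)),
      Finset.sum_eq_zero fun j _ => elim_zero fun K₁ h1 => hf j K₁ (χ_zero' K₁ (k' j K₁ h1))]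
  rw [(meas_thick _ one_pos).1, mem_ofPred] at k
  push Not at k
  obtain ⟨j', K₁', h1, h2⟩ := k
  have t1 := deep_J K₁' one_pos h2
  have t2 := (tm_tgt K₁').2 t1
  have e1 : x = K₁'.ψ ((K₁'.ψ.symm x).1, K₁'.tm x) := by
    rw [← K₁'.snd_symm t2]; exact (K₁'.ψ.right_inv t2).symm
  rw [sum_nk h.ok'.toOK h1 t2 f' fun j K₂ k => hf' j K₂ (K₂.χ_zero k)]
  have fin : ∀ j (K₁ : Nk (d.e j.1) P.bg) z, P.nk j = some K₁ → z ∈ K₁.ψ.source → φ x = K₁.ψ z →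
      ∑ j, (P.nk j).elim 0 (f j) = f j K₁ := fun j K₁ z k1 k2 k3 =>
    sum_nk h.ok.toOK k1 (k3 ▸ K₁.ψ.map_source k2) f fun j K₂ k => hf j K₂ (K₂.χ_zero k)
  rcases h.cases' j' with rfl | k | ⟨j, k, rfl⟩
  · obtain rfl := Option.some.inj (h.hK'.symm.trans h1)
    have k := half_nk h.H.choose_spec h.hK h.hK'
    have k3 : pm b * (K'.tm x - (τ - δ)) ≤ 3 := (dep_le h hA hx).trans (by norm_num)
    have k4 := (h.J_iff k3).1 t1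
    have k5 := (congrArg φ e1).trans (h.fwd (z := (_, _)) t1 k3)
    rw [fin (ε, a) K _ h.hK (src K k4 _) k5]
    refine e _ _ _ _ _ _ _ δ ⟨t1, k4, Cut71.ct_eq k.1 k.2.1 h.win k3, fun k6 s hs => ?_⟩ e1 k5
    rw [ht_eq K' k6] at hx
    have k7 := (abs_le.1 (pm_win (o := b) hs)).2
    have k8 : ∀ y, At (fun z => (z.1, z.2 + δ)) (K'.pb c') (K.pb c) (y, s) := fun y => by
      have := e0 _ (ht_lt h.inf (src K' (half_J K' k6 hs) y) (a := A + 2) (by linarith) (by linarith))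
      rw [h.fwd (z := (y, s)) (half_J K' k6 hs) (by rw [mul_sub]; linarith)] at this
      exact ⟨fun i => (this.1 i).symm, this.2.symm⟩
    exact YC.ext (funext fun i => funext fun y => (k8 y).1 (some i)) (funext fun y => (k8 y).2)
  · exact (off_deep K₁' le_rfl (k K₁' h1) _ h2).elim
  obtain ⟨-, k0, k1 | ⟨K₁, k1, K₀, k2, k3, k4, -, k5⟩⟩ := h.H.choose_spec.oth j k
  · exact (off_deep K₁' le_rfl (k1.2 K₁' h1) _ h2).elim
  obtain rfl := Option.mem_unique k2 h1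
  have k6 : K₀.tm x + 0 ∈ K₁.J := by rw [add_zero, Nd18.Nk.J, k3, k4]; exact t1
  have k7 : φ x = K₁.ψ ((K₀.ψ.symm x).1, K₀.tm x + 0) := by
    rw [add_zero, k5 _ (src K₀ t1 _), ← e1]
  rw [fin _ K₁ _ k1 (src K₁ k6 _) k7]
  refine e _ _ _ _ _ _ _ 0 ⟨t1, k6, by rw [add_zero, Nd18.Nk.cut, Nd18.Nk.cut, k3, k4],
    fun k8 s hs => ?_⟩ e1 k7
  rw [add_zero]
  refine Cut71.sl_congr fun y => ?_
  have m := src K₀ (half_J K₀ k8 hs) y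
  have := e0 _ ((ht_off h.inf fun m' => disjoint_left.1 (h.ok'.dj k0 K₀ k2 K' h.hK')
    (K₀.ψ.map_source m) m').trans_lt (by linarith))
  rw [← k5 _ m] at this
  exact ⟨fun i => (this.1 i).symm, this.2.symm⟩

theorem mt_eq (hf : ∀ w ∈ J, P.fo w (φ x) = P'.fo w x) : EqF P P' J c c' (φ x) x := by
  have s := h.src' (x := x) ((dep_le h hA hx).trans (by norm_num))
  have ev : ∀ᶠ y in 𝓝 x, At φ c' c y :=
    mem_of_superset ((isOpen_lt (hg_ht K').sm.continuous continuous_const).mem_nhds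
      (show ht K' b x < A + 2 by linarith)) fun y hy => ⟨fun i => ((e0 y hy).1 i).symm, (e0 y hy).2.symm⟩
  refine ⟨(congrArg₂ (· - ·) (Cut71.eD_φ h.lit s ev) (sum_ag h hA hx hb e0
      (fun _ K₁ => K₁.rad c (φ x)) (fun _ K₁ => K₁.rad c' x) (fun _ _ k => ?_)
      (fun _ _ k => ?_) fun _ _ _ _ _ y _ _ m e1 e2 => ?_)).symm,
    (congrArg₂ (· - ·) (Cut71.eC_φ h.lit s ev) (sum_ag h hA hx hb e0
      (fun _ K₁ => K₁.hl c (φ x)) (fun _ K₁ => K₁.hl c' x) (fun _ _ k => ?_)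
      (fun _ _ k => ?_) fun _ _ _ _ _ y _ _ m e1 e2 => ?_)).symm,
    fun w hw => congrArg₂ (· + ·) (hf w hw) (sum_ag h hA hx hb e0
      (fun j K₁ => (d.yt w j.1).elim 0 fun T => K₁.ms T c (φ x))
      (fun j K₁ => (d.yt w j.1).elim 0 fun T => K₁.ms T c' x) (fun _ _ k => ?_) (fun _ _ k => ?_)
      fun _ _ _ _ _ y _ _ m e1 e2 => ?_).symm⟩
  · rw [Nk.rad, k, zero_mul, zero_smul]
  · rw [Nk.rad, k, zero_mul, zero_smul]
  · rw [e2]; exact (congrArg _ e1).trans (m.terms y).1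
  · rw [Nk.hl, Nd18.Nk.ext, k, zero_smul, smul_zero]
  · rw [Nk.hl, Nd18.Nk.ext, k, zero_smul, smul_zero]
  · rw [e2]; exact (congrArg _ e1).trans (m.terms y).2.1
  · exact elim_zero fun T _ => by rw [Nk.ms, Nd18.Nk.ext, k, zero_smul, smul_zero]
  · exact elim_zero fun T _ => by rw [Nk.ms, Nd18.Nk.ext, k, zero_smul, smul_zero]
  · rw [e2]; exact elim_congr fun T _ => (congrArg _ e1).trans ((m.terms y).2.2 T)

end half

variable {T T₁ T₂ : Type} [NormedAddCommGroup T] [NormedSpace ℝ T] [FiniteDimensional ℝ T]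
  [NormedAddCommGroup T₁] [NormedSpace ℝ T₁] [FiniteDimensional ℝ T₁]
  [NormedAddCommGroup T₂] [NormedSpace ℝ T₂] [FiniteDimensional ℝ T₂]
  {s : StS d Sl X} {s₁ : StS d Sl X₁} {s₂ : StS d Sl X₂} {σ : Cel s nc nr T}
  {σ₁ : Cel s₁ n₁ r₁ T₁} {σ₂ : Cel s₂ n₂ r₂ T₂}

variable (σ) in
/-- the cut functions only see the part below `a` -/
def Lw (g : X.M → ℝ) (J : Finset d.W) (a : ℝ) : Prop := ∃ R, ∀ t ∈ σ.Q, ∀ j,
  Kop92.Sp R ((σ.P t).bg.ct j).ρ ∧ Kop92.Sp R ((σ.P t).bg.ct j).η ∧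
    (∀ w ∈ J, Kop92.Sp R ((σ.P t).η w j)) ∧ ∀ y, ‖y‖ ≤ R → g (((σ.P t).bg.ct j).Ξ y) < a

theorem lw_ev (h : σ.toFam.OK) {g : X.M → ℝ} (hg : Continuous g) (J : Finset d.W) :
    ∀ᶠ a in atTop, Lw σ g J a := by
  obtain ⟨t₀, h0⟩ := h.ne
  have C := fun j => (h.ok t₀ h0).bg.ct j
  have h1 : ∀ j, ∀ᶠ R in atTop, Kop92.Sp R ((σ.P t₀).bg.ct j).ρ := fun j => by
    obtain ⟨R, hR⟩ := (C j).cρ.isCompact.isBounded.exists_norm_le
    exact (eventually_ge_atTop R).mono fun R' k y hy =>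
      image_eq_zero_of_notMem_tsupport fun m => by linarith [hR y m]
  obtain ⟨R, hR⟩ := (eventually_all.2 fun j => (h1 j).and ((JC.sp (h.η0 j)).and
    ((eventually_all_finset J).2 fun w _ => JC.sp (h.η w j)))).exists
  have h2 : ∀ j, ∀ᶠ a in atTop, ∀ y, ‖y‖ ≤ R → g (((σ.P t₀).bg.ct j).Ξ y) < a := fun j => by
    obtain ⟨M, hM⟩ := (isCompact_closedBall (0 : R4) R).bddAbove_image
      (hg.comp (C j).sm.continuous).continuousOn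
    exact (eventually_gt_atTop M).mono fun a k y hy =>
      (hM ⟨y, mem_closedBall_zero_iff.2 hy, rfl⟩).trans_lt k
  exact (eventually_all.2 h2).mono fun a ha => ⟨R, fun t ht j =>
    ⟨(h.ct t₀ h0 t ht j).2 ▸ (hR j).1, (hR j).2.1 t ht, fun w hw => (hR j).2.2 w hw t ht,
      (h.ct t₀ h0 t ht j).1 ▸ ha j⟩⟩

theorem mt_half (hσ : σ.OK) (h₁ : σ₁.OK) (h₂ : σ₂.OK) {t : T} {t₁ : T₁} {t₂ : T₂} (ht : t ∈ σ.Q)
    (ht₁ : t₁ ∈ σ₁.Q) (ht₂ : t₂ ∈ σ₂.Q) {ε : d.𝓔} {a a₁ a₂ : Sl} {b : Bool}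
    {φ₁ : OpenPartialHomeomorph X₁.M X.M} {φ₂ : OpenPartialHomeomorph X₂.M X.M} {δ₁ δ₂ r Λ a₀ r₀ : ℝ}
    {O₁ O₂ : d.𝓔 × Sl → Prop} {π : d.𝓔 × Sl → Sl} {c₁ : Fin n₁ → Fin nc} {c₂ : Fin n₂ → Fin nc}
    {J : Finset d.W} (H₁ : Half (σ.P t) (σ₁.P t₁) ε a a₁ b φ₁ δ₁ r O₁ π c₁ J)
    (H₂ : Half (σ.P t) (σ₂.P t₂) ε a a₂ (!b) φ₂ δ₂ r O₂ π c₂ J)
    (cap : ∀ K ∈ (σ.P t).nk (ε, a), φ₁.target ∩ φ₂.target = K.ψ.target)
    (hO : ∀ j ≠ (ε, a), ¬O₁ j → O₂ j) {K₁ : Nk (d.e ε) s₁.bg} {K₂ : Nk (d.e ε) s₂.bg}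
    (k₁ : K₁ ∈ s₁.nk (ε, a₁)) (k₂ : K₂ ∈ s₂.nk (ε, a₂)) (hr : r = 2 * Λ)
    (hδ : pm b * (δ₂ - δ₁) = 4 * Λ) (f₁ : Fo σ₁ J r₀) (f₂ : Fo σ₂ J r₀) (h0 : |r₀| < Λ)
    (b₁ : bd K₁ + 7 ≤ Λ) (b₂ : bd K₂ + 7 ≤ Λ) (b₀ : bd K₁ < a₀)
    (hL : Lw σ₁ (Gls64.ht K₁ b) J (a₀ + 2)) :
    Mt (σ.P t) (σ₁.P t₁) φ₁ (Gls64.ht K₁ b) (3 * Λ + 3) J c₁ a₀ := by
  obtain ⟨L₁, l1, g1⟩ := h₁.en _ ht₁ (ε, a₁) K₁ k₁
  obtain ⟨L₂, l2, g2⟩ := h₂.en _ ht₂ (ε, a₂) K₂ k₂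
  obtain ⟨K, hK, -⟩ := H₁.nk
  rw [← (ng_ht g1 b).2] at b₁ b₀
  rw [← (ng_ht g2 b).2] at b₂
  rw [← (ng_ht g1 _).1] at hL ⊢
  have n1 := bd_nonneg L₁
  have q := Cut71.pm_sq b
  have e1 : pm b * (δ₁ + pm b * (3 * Λ) - δ₁) = 3 * Λ := by linear_combination (3 * Λ) * q
  have e2 : pm b * (δ₂ - (δ₁ + pm b * (3 * Λ))) = Λ := by linear_combination hδ - e1
  obtain ⟨i1, p1, -⟩ := half_nk H₁ hK l1
  obtain ⟨i2, p2, -⟩ := half_nk H₂ hK l2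
  have win : Icc (δ₁ + pm b * (3 * Λ) - 6) (δ₁ + pm b * (3 * Λ) + 6) ⊆ K.J := fun u hu => by
    have u1 := hu.1
    have u2 := hu.2
    have m1 := dp_of i1 (D := 1) (t := u - δ₁) (by
      cases b <;> simp only [pm, Bool.false_eq_true, if_false, if_true] at * <;> linarith)
    have m2 := dp_of i2 (D := 1) (t := u - δ₂) (by
      cases b <;> simp only [pm, Bool.not_true, Bool.not_false, Bool.false_eq_true, if_false,
        if_true] at * <;> linarith)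
    cases b <;> simp only [Bool.not_true, Bool.not_false, Bool.false_eq_true, if_false,
      if_true] at p1 p2
    · refine ⟨fun v hv => ?_, fun v hv => ?_⟩
      · obtain ⟨w, w1, rfl⟩ := Option.mem_map.1 (p2 ▸ hv)
        linarith [m2.1 w w1]
      · obtain ⟨w, w1, rfl⟩ := Option.mem_map.1 (p1 ▸ hv)
        linarith [m1.2 w w1]
    · refine ⟨fun v hv => ?_, fun v hv => ?_⟩
      · obtain ⟨w, w1, rfl⟩ := Option.mem_map.1 (p1 ▸ hv)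
        linarith [m1.1 w w1]
      · obtain ⟨w, w1, rfl⟩ := Option.mem_map.1 (p2 ▸ hv)
        linarith [m2.2 w w1]
  obtain ⟨K', L, h, hf⟩ := Cut71.go hσ h₁ ht ht₁ ht₂ H₁ H₂ cap hO ⟨K, hK, win⟩ (by linarith) f₁ f₂
    (by linarith [le_abs_self r₀, abs_nonneg r₀])
    (by linarith [le_abs_self r₀])
  obtain rfl := Option.mem_unique l1 h.hK'
  refine ⟨H₁.lit, fun A a1 a2 c c' _ _ e x hx => mt_eq h (by linarith) hx (by linarith) e fun w hw =>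
    hf w hw x (dep_le h (by linarith) hx), fun c c' hc _ e j => ?_⟩
  obtain ⟨R, hR⟩ := hL
  obtain ⟨r1, r2, r3, r4⟩ := hR t₁ ht₁ j
  obtain ⟨m1, m2, m3, m4, m5⟩ := H₁.ct j
  have k := fun η (hη : Kop92.Sp R η) => (Cut71.lη_φ H₁.lit h.ok'.bg h.ok.bg hc (c := c') m1 m2 m3 r1 hη
    fun y hy => ⟨fun i => ((e _ (r4 y hy)).1 i).symm, (e _ (r4 y hy)).2.symm⟩).symm
  exact ⟨by rw [Bg.l, m4]; exact k _ r2, fun w hw => by rw [m5 w hw]; exact k _ (r3 w hw)⟩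

variable (d X X₁ X₂ nc nr n₁ r₁ n₂ r₂ T T₁ T₂ Sl) in
/-- **GL-MT** -/
theorem mtStmt : MtStmt d X X₁ X₂ nc nr n₁ r₁ n₂ r₂ T T₁ T₂ Sl := by
  intro s s₁ s₂ σ σ₁ σ₂ p _ hp K₁ h₁ K₂ h₂ _ _ J
  set S := sp p (ht K₁ true) (ht K₂ false)
  obtain ⟨l, hl⟩ := hp.cut J
  obtain ⟨r₀, f1, f2⟩ := ((Cut71.fo_ev hp.okL J).and (Cut71.fo_ev hp.okR J)).exists
  have tΛ : Tendsto S.Λ S.lg atTop := tendsto_comap.mono_left inf_le_left
  have t2 := tendsto_atTop_add_const_right atTop (2 : ℝ) tendsto_id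
  filter_upwards [eventually_gt_atTop (bd K₁), eventually_gt_atTop (bd K₂),
    t2.eventually (lw_ev hp.okL.toOK (hg_ht (o := true) K₁).sm.continuous J),
    t2.eventually (lw_ev hp.okR.toOK (hg_ht (o := false) K₂).sm.continuous J)] with a a1 a2 a3 a4
  filter_upwards [tΛ.eventually_ge_atTop (l / 4), tΛ.eventually_ge_atTop (bd K₁ + 7),
    tΛ.eventually_ge_atTop (bd K₂ + 7), tΛ.eventually_gt_atTop |r₀|,
    mem_inf_of_right (mem_principal_self S.Δ)] with δ k1 k2 k3 k4 k5 t₁ m₁ t₂ m₂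
  have e : S.Λ δ = (δ.2 - δ.1) / 4 := rfl
  obtain ⟨m, -, cap, H, H'⟩ := hl δ k5 (by linarith) _ m₁ _ m₂
  exact ⟨m, mt_half hp.ok hp.okL hp.okR m m₁ m₂ H H' cap (fun j a b => ⟨a, by simpa [a] using b⟩) h₁ h₂
      (by linarith) (by rw [Cut71.pm_t]; linarith) f1 f2 k4 k2 k3 a1 a3,
    mt_half hp.ok hp.okR hp.okL m m₂ m₁ H' H (fun K e => (inter_comm _ _).trans (cap K e))
      (fun j a b => ⟨a, by simpa [a] using b⟩) h₂ h₁ (by linarith) (by rw [Cut71.pm_f]; linarith)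
      f2 f1 k4 k3 k2 a2 a4⟩

end Crest.Agent.X212.Gl50
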