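import Crest.Agent.X212.Gl50.Face
import Crest.Agent.X212.Fht9.Main

/-!
# Row 212, GL-S (helper50): GL-PRE, pre-gluing
-/

set_option autoImplicit false
set_option linter.unusedSectionVars false
noncomputable section
open scoped Manifold ContDiff Topology InnerProductSpace ENNReal
open MeasureTheory Set Function Filter

namespace Crest.Agent.X212.Gl50
open An Sob92 Prm93 Pb50 Sw Cyf70 Gls64 Sw.En3
open M (Mf pm)
open Neck67 (up)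
open Cut71 (At half_nk half_inv)

variable {κ lam ν : Type} [Fintype κ] [Fintype lam] [Fintype ν] [DecidableEq ν]
  {X X₁ X₂ : Mf 4} {nc nr n₁ r₁ n₂ r₂ : ℕ} {V : Type} [NormedAddCommGroup V] [NormedSpace ℝ V]

theorem gl_sh {e : En3 κ lam ν} {o : Bool} {f : e.Y.M × ℝ → V} (h : Gl e.D.F.toPre o f) (r : ℝ) :
    Gl e.D.F.toPre o fun x => f (x.1, x.2 + r) := by
  obtain ⟨g, h1, h2⟩ := h
  obtain ⟨T, -, hT⟩ := nd_basis.eventually_iff.1 h2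
  refine ⟨g ∘ Cut71.sH e r, (hi_iff (X := e.Z)).2 ⟨h1.1.comp (Cut71.sm_sH r), fun k => ?_⟩,
    nd_basis.eventually_iff.2 ⟨T - pm o * r, trivial, fun x hx => hT (show T < pm o * (x.2 + r) by
      linarith [mem_ofPred.1 hx])⟩⟩
  exact (Gl67.N_iso (Cut71.sH_lit r).iso continuous_zero .univ .univ (fun _ _ => trivial)
    (fun _ _ => trivial) (fun _ _ => Iff.rfl) (fun _ _ => rfl) h1.1).trans_ne
    (((hi_iff (X := e.Z)).1 h1).2 k)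

variable {d : Dt κ lam ν}
  {T T₁ T₂ : Type} [NormedAddCommGroup T] [NormedSpace ℝ T] [FiniteDimensional ℝ T]
  [NormedAddCommGroup T₁] [NormedSpace ℝ T₁] [FiniteDimensional ℝ T₁]
  [NormedAddCommGroup T₂] [NormedSpace ℝ T₂] [FiniteDimensional ℝ T₂]

/-- a point that is static far out -/
theorem exists_flat {N : Type} [Fintype N] {ty : N → d.𝓔} {s : Pz X 0 fun i => d.e (ty i)}
    {σ : Cel s nc nr T} (h : σ.OK) {i : N} {o : Bool} {K : Nk (d.e (ty i)) s.bg} (hK : K ∈ s.nk i)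
    (ho : K.Inf o) (x : σ.Pnt) : ∃ y : ℝ → σ.Pnt, (∀ p, (y p).1.1 = x.1.1) ∧
      (∀ k, Tendsto (fun p => σ.dk k (y p) x) atTop (𝓝 0)) ∧ ∀ᶠ p in atTop, ∀ z,
        p + 1 ≤ pm o * z.2 → At K.ψ (fz (σ.β i o)) (y p).1.2 z := by
  have hβ := cr_of_gd h.gd
  have h := h.toOK
  have hT := h.site.bg.tame.choose_spec
  have hg := hg_ht (o := o) K
  obtain ⟨a1, a2⟩ := (hs_iff hT).1 (hs_a h hβ x)
  obtain ⟨b1, b2⟩ := (hs_iff hT).1 (hs_Φ h hβ x)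
  have ng : ∀ {W : Type} [NormedAddCommGroup W] [NormedSpace ℝ W] {u : X.M → W} (p : ℝ),
      Hi s.bg.F.toPre u → Hi s.bg.F.toPre (-fun w => up p 1 (ht K o w) • u w) := fun p hu =>
    (Hi.smul (hg.Cb (Neck67.sm_up le_rfl p)) hu).clm (-ContinuousLinearMap.id ℝ _)
  choose y y1 y2 y3 using fun p => exists_add h hβ x.2.1 x (ng p a1) (ng p b1)
    (fun w => by rw [Pi.neg_apply, map_neg, map_smul, a2])
    fun w => by rw [Pi.neg_apply, map_neg, map_smul, b2]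
  refine ⟨y, y1, fun k => (dk_iff h hβ).2 ⟨(Nz_tail hg a1 k).congr fun p => ?_,
    (Nz_tail hg b1 k).congr fun p => ?_, by simpa only [y1] using tendsto_const_nhds⟩, ?_⟩
  · rw [y1, y2, add_sub_cancel_left, Nz, Nz, Gl67.N_neg]
  · rw [y3, add_sub_cancel_left, Nz, Nz, Gl67.N_neg]
  obtain ⟨R, -, hR⟩ := nd_basis.eventually_iff.1 ((eventually_all.2 fun a => base_ev h.site
    (g := fun i s => (fz (σ.β i s)).a a) hK ho).and
      (base_ev h.site (g := fun i s => (fz (σ.β i s)).Φ) hK ho))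
  filter_upwards [eventually_ge_atTop R, eventually_ge_atTop (bd K)] with p h1 h2 z hz
  obtain ⟨k1, k2⟩ := ht_at ho (z := z) (by linarith)
  obtain ⟨k3, k4⟩ := hR (show z ∈ {x | R < pm o * x.2} from by show R < _; linarith)
  have k5 : up p 1 (ht K o (K.ψ z)) = 1 := Neck67.up_one one_pos (by linarith)
  refine ⟨fun a => ?_, by
    rw [y3, Pi.add_apply, Pi.neg_apply, k5, one_smul, Pi.sub_apply, neg_sub, add_sub_cancel]
    exact k4.symm⟩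
  rw [← S_al h x.2.1 (pa_pnt h (y p)), y2]
  simp only [Pi.add_apply, Pi.neg_apply, k5, one_smul, neg_sub, add_sub_cancel,
    S_nk h x.2.1 hK k1, (adm_base hβ).pa]
  exact (k3 a).symm

variable [Fintype d.𝓔] {Sl : Type} [Fintype Sl]

section half
variable {P : PcS d Sl X nc} {P' : PcS d Sl X₁ n₁} {ε : d.𝓔} {a a' : Sl} {b : Bool}
  {φ : OpenPartialHomeomorph X₁.M X.M} {δ r A : ℝ} {O : d.𝓔 × Sl → Prop} {π : d.𝓔 × Sl → Sl}
  {cc : Fin n₁ → Fin nc} {J : Finset d.W} (H : Half P P' ε a a' b φ δ r O π cc J)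
  {K' : Nk (d.e ε) P'.bg} (hK' : K' ∈ P'.nk (ε, a')) (hA : bd K' + 1 < A)
  {c : Cfg X.M κ ν} {c' : Cfg X₁.M κ ν} (ha : Ag φ {p | ht K' b p < A} c c')
  {β : BCs fun i : d.𝓔 × Sl => d.e i.1} (hc : P'.As β c')
include H hK' hA ha hc

theorem asy_oth (hP : P'.OK) {j : d.𝓔 × Sl} (hj : O j) {K : Nk (d.e j.1) P.bg} (hK : K ∈ P.nk j)
    {o : Bool} (ho : K.Inf o) : P'.Inf (j.1, π j) o ∧ K.Asy o (β (j.1, π j) o) c := by
  obtain ⟨K₀, -, K₁, h0, hb, -⟩ := H.nk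
  obtain rfl := Option.mem_unique h0 hK'
  obtain ⟨-, h2, h3 | ⟨K₂, h3, K₃, h4, h5, h6, -, h8⟩⟩ := H.oth j hj
  · obtain ⟨u, k1, k2⟩ := h3.1 K hK
    cases o <;> simp [Nk.Inf, k1, k2] at ho
  obtain rfl := Option.mem_unique hK h3
  have k0 : K₃.Inf o := by simpa only [Nk.Inf, h5, h6] using ho
  obtain ⟨R, k1, k2⟩ := hc.2 _ o K₃ h4 k0
  have e : K.far o R = K₃.far o R := by simp only [Nk.far, Nd18.Nk.J, h5, h6]
  have k : ∀ z ∈ (univ : Set (d.e j.1).Y.M) ×ˢ K₃.far o R, At id (K.pb c) (K₃.pb c') z := fun z hz => by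
    have m := K₃.mem_src.2 hz.2.1
    have := ha _ ((ht_off hb fun k => disjoint_left.1 (hP.dj h2 K₃ h4 K₁ h0)
      (K₃.ψ.map_source m) k).trans_lt hA)
    rwa [← h8 z m] at this
  exact ⟨⟨K₃, h4, k0⟩, R, e ▸ fun i => hh_congr (k1 i) (isOpen_far K₃ R) fun z hz =>
    congrArg (· - _) ((k z hz).1 i).symm,
    e ▸ hh_congr k2 (isOpen_far K₃ R) fun z hz => congrArg (· - _) (k z hz).2.symm⟩

theorem asy_nk {K : Nk (d.e ε) P.bg} (hK : K ∈ P.nk (ε, a)) (ho : K.Inf !b) (hc₀ : P.bg.Adm c)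
    (hβ : P'.Cr β) : K.Asy (!b) (β (ε, a') !b) c := by
  obtain ⟨-, h2, -⟩ := half_nk H hK hK'
  have hb := (half_nk H hK hK').1
  have k0 : K'.Inf !b := by
    cases b
    · exact Option.map_eq_none_iff.1 ((show K.q = _ from h2).symm.trans ho)
    · exact Option.map_eq_none_iff.1 ((show K.p = _ from h2).symm.trans ho)
  have hv := (hβ (ε, a') _ ⟨K', hK', k0⟩).1
  obtain ⟨k1, k2⟩ := (asy_iff K' k0 hc.1 hv).1 (hc.2 (ε, a') _ K' hK' k0)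
  have ev : ∀ᶠ z in nd (d.e ε).Y.M !b, At (fun z => (z.1, z.2 + -δ)) (K.pb c) (K'.pb c') z := by
    filter_upwards [ev_ψ K ho, nd_basis.mem_of_mem (i := |A| + |δ|) trivial] with z h1 h3
    obtain ⟨m1, -, m3⟩ := half_inv H hK hK' (t := z.2 + -δ) (by simpa using K.mem_src.1 h1) z.1
    have := ha _ (ht_lt hb (src K' m1 z.1) hA (by
      have h3 : |A| + |δ| < pm (!b) * z.2 := h3
      cases b <;> simp [pm] at h3 ⊢ <;> linarith [neg_abs_le A, neg_abs_le δ, le_abs_self δ]))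
    rwa [m3, neg_add_cancel_right] at this
  exact (asy_iff K ho hc₀ hv).2 ⟨fun i => (gl_sh (k1 i) (-δ)).congr (ev.mono fun z hz =>
      congrArg₂ (· - ·) (hz.1 i) ((fz_a _ i _).trans (fz_a _ i (z.1, z.2 + -δ)).symm)),
    (gl_sh k2 (-δ)).congr (ev.mono fun z hz => congrArg (· - _) hz.2)⟩

omit ha hc in
/-- points of the neck -/
theorem neck_pt {K : Nk (d.e ε) P.bg} (hK : K ∈ P.nk (ε, a)) {g : X.M → ℝ} (G : Ht φ (ht K' b) g A)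
    {w : X.M} (h1 : bd K' + 1 < g w) (h2 : g w < A) : ∃ z : (d.e ε).Y.M × ℝ, φ.symm w = K'.ψ z ∧
      pm b * z.2 = g w ∧ (z.1, z.2 + δ) ∈ K.ψ.source ∧ w = K.ψ (z.1, z.2 + δ) := by
  obtain ⟨hb, -, k1, k2, -⟩ := half_nk H hK hK'
  have m := G.tgt h2
  have e := ht_iff G (φ.map_target m) (.inr (by rwa [φ.right_inv m]))
  rw [φ.right_inv m] at e
  obtain ⟨z, z1, z2, z3⟩ := ht_ψ hb (e ▸ h1)
  have z4 := (k1 _).1 (z2 ▸ φ.map_target m)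
  rw [K'.tm_ψ z z1] at z4
  have z5 := K'.mem_src.1 z1
  exact ⟨z, z2.symm, z3.trans e.symm, src K (z4 z5) _, by
    rw [← k2 _ _ z5 (z4 z5), Prod.mk.eta, z2, φ.right_inv m]⟩

end half

variable {s : StS d Sl X} {s₁ : StS d Sl X₁} {s₂ : StS d Sl X₂} {σ : Cel s nc nr T}
  {σ₁ : Cel s₁ n₁ r₁ T₁} {σ₂ : Cel s₂ n₂ r₂ T₂} {p : Spl X X₁ X₂ nc n₁ n₂ d Sl T T₁ T₂}

theorem ng_ht {e : En3 κ lam ν} {b : Bg X.I X.M κ lam ν nc} {b' : Bg X.I X.M κ lam ν n₁}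
    {K : Nk e b} {K' : Nk e b'} (h : K'.ng = K.ng) (o : Bool) : ht K' o = ht K o ∧ bd K' = bd K :=
  ⟨funext fun x => by simp only [ht, Nd18.Nk.τ, ng_p h, ng_q h, ng_tm h],
    by simp only [bd, ng_p h, ng_q h]⟩

/-- gluing of two points that are static far out -/
theorem exists_glue (hp : p.OK σ σ₁ σ₂) {K₁ : Nk (d.e p.ε) s₁.bg} {K₂ : Nk (d.e p.ε) s₂.bg}
    (h₁ : K₁ ∈ s₁.nk (p.ε, p.aL)) (h₂ : K₂ ∈ s₂.nk (p.ε, p.aR)) {δ : ℝ × ℝ} {Λ r : ℝ} {g : X.M → ℝ}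
    (x : σ₁.Pnt) (z : σ₂.Pnt) (hQ : p.par x.1.1 z.1.1 δ ∈ σ.Q)
    (HL : Half (σ.P (p.par x.1.1 z.1.1 δ)) (σ₁.P x.1.1) p.ε p.a p.aL true (p.φL δ) δ.1 r
      (fun j => j ≠ (p.ε, p.a) ∧ p.side j = false) p.π (fun j => p.c (.inl j)) ∅)
    (HR : Half (σ.P (p.par x.1.1 z.1.1 δ)) (σ₂.P z.1.1) p.ε p.a p.aR false (p.φR δ) δ.2 r
      (fun j => j ≠ (p.ε, p.a) ∧ p.side j = true) p.π (fun j => p.c (.inr j)) ∅)
    (G₁ : Ht (p.φL δ) (ht K₁ true) g (3 * Λ + 3))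
    (G₂ : Ht (p.φR δ) (ht K₂ false) (fun w => 4 * Λ - g w) (3 * Λ + 3))
    (b₁ : bd K₁ + 4 ≤ Λ) (b₂ : bd K₂ + 4 ≤ Λ)
    (f₁ : ∀ u, Λ - 3 ≤ pm true * u.2 → At K₁.ψ (fz (σ₁.β (p.ε, p.aL) true)) x.1.2 u)
    (f₂ : ∀ u, Λ - 3 ≤ pm false * u.2 → At K₂.ψ (fz (σ₂.β (p.ε, p.aR) false)) z.1.2 u) :
    ∃ y : σ.Pnt, y.1.1 = p.par x.1.1 z.1.1 δ ∧
      Ag (p.φL δ) {w | ht K₁ true w < 3 * Λ + 3} y.1.2 x.1.2 ∧
      Ag (p.φR δ) {w | ht K₂ false w < 3 * Λ + 3} y.1.2 z.1.2 := by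
  classical
  obtain ⟨L₁, l1, g1⟩ := hp.okL.en _ x.2.1 (p.ε, p.aL) K₁ h₁
  obtain ⟨L₂, l2, g2⟩ := hp.okR.en _ z.2.1 (p.ε, p.aR) K₂ h₂
  obtain ⟨K, hK, -⟩ := HL.nk
  rw [← ng_ψ g1] at f₁
  rw [← ng_ψ g2] at f₂
  rw [← (ng_ht g1 true).2] at b₁
  rw [← (ng_ht g2 true).2] at b₂
  rw [← (ng_ht g1 _).1] at G₁ ⊢
  rw [← (ng_ht g2 _).1] at G₂ ⊢
  have n1 := bd_nonneg L₁
  have n2 := bd_nonneg L₂
  let c : Cfg X.M κ ν := ⟨fun a w => if g w < 3 * Λ + 3 then x.1.2.a a ((p.φL δ).symm w)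
    else z.1.2.a a ((p.φR δ).symm w), fun w => if g w < 3 * Λ + 3 then x.1.2.Φ ((p.φL δ).symm w)
      else z.1.2.Φ ((p.φR δ).symm w)⟩
  have c1 : ∀ w, g w < 3 * Λ + 3 → At (p.φL δ).symm c x.1.2 w := fun w hw =>
    ⟨fun _ => if_pos hw, if_pos hw⟩
  have c2 : ∀ w, 4 * Λ - g w < 3 * Λ + 3 → At (p.φR δ).symm c z.1.2 w := fun w hw => by
    by_cases k : g w < 3 * Λ + 3
    · obtain ⟨u, u1, u2, u3, u4⟩ := neck_pt HL l1 (by linarith) hK G₁ (by linarith) k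
      obtain ⟨v, v1, v2, v3, v4⟩ := neck_pt HR l2 (by linarith) hK G₂ (w := w) (by linarith) hw
      have e : u.1 = v.1 := (Prod.ext_iff.1 (K.ψ.injOn u3 v3 (u4.symm.trans v4))).1
      have e1 := f₁ u (by linarith)
      have e2 := f₂ v (by linarith)
      rw [hp.mid, At, ← u1] at e1
      rw [At, ← v1] at e2
      exact ⟨fun a => by rw [(c1 w k).1, ← e1.1, ← e2.1, fz_a, e, ← fz_a],
        by rw [(c1 w k).2, ← e1.2, ← e2.2]; exact congrArg (σ₂.β (p.ε, p.aR) false).Φ e⟩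
    · exact ⟨fun _ => if_neg k, if_neg k⟩
  have a1 : Ag (p.φL δ) {w | ht L₁ true w < 3 * Λ + 3} c x.1.2 := fun w hw => by
    have := c1 _ ((ht_iff G₁ (G₁.src hw) (.inl hw)).trans_lt hw)
    rwa [At, (p.φL δ).left_inv (G₁.src hw)] at this
  have a2 : Ag (p.φR δ) {w | ht L₂ false w < 3 * Λ + 3} c z.1.2 := fun w hw => by
    have := c2 _ ((ht_iff G₂ (G₂.src hw) (.inl hw)).trans_lt hw)
    rwa [At, (p.φR δ).left_inv (G₂.src hw)] at this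
  have hc : (σ.P (p.par x.1.1 z.1.1 δ)).bg.Adm c := adm_of fun w => by
    by_cases k : g w < 3 * Λ + 3
    · exact Cut71.la_φ (Cut71.lit_symm HL.lit) (G₁.tgt k) (mem_of_superset
        ((isOpen_lt G₁.cont continuous_const).mem_nhds k) c1) (.of_adm x.2.2.1 _)
    · have k : 4 * Λ - g w < 3 * Λ + 3 := by linarith
      exact Cut71.la_φ (Cut71.lit_symm HR.lit) (G₂.tgt k) (mem_of_superset
        ((isOpen_lt G₂.cont continuous_const).mem_nhds k) c2) (.of_adm z.2.2.1 _)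
  refine ⟨⟨(_, c), hQ, hc, fun j o K' hK' ho => ?_⟩, rfl, a1, a2⟩
  have hi := (inf_iff hp.ok.toOK hQ j o).1 ⟨K', hK', ho⟩
  by_cases hj : j = (p.ε, p.a)
  · subst hj
    cases o
    · exact hp.βL hi ▸ asy_nk HL l1 (by linarith) a1 x.2.2 hK' ho hc fun i o k =>
        cr_of_gd hp.okL.gd i o ((inf_iff hp.okL.toOK x.2.1 i o).1 k)
    · exact hp.βR hi ▸ asy_nk HR l2 (by linarith) a2 z.2.2 hK' ho hc fun i o k =>
        cr_of_gd hp.okR.gd i o ((inf_iff hp.okR.toOK z.2.1 i o).1 k)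
  · rw [hp.βo j o hj hi]
    cases e : p.side j
    · exact (asy_oth HL l1 (by linarith) a1 x.2.2 (hp.okL.ok _ x.2.1) ⟨hj, e⟩ hK' ho).2
    · exact (asy_oth HR l2 (by linarith) a2 z.2.2 (hp.okR.ok _ z.2.1) ⟨hj, e⟩ hK' ho).2

variable (d X X₁ X₂ nc nr n₁ r₁ n₂ r₂ T T₁ T₂ Sl) in
/-- **GL-PRE** -/
theorem preStmt : PreStmt d X X₁ X₂ nc nr n₁ r₁ n₂ r₂ T T₁ T₂ Sl := by
  intro s s₁ s₂ σ σ₁ σ₂ p hg hp K₁ h₁ K₂ h₂ i₁ i₂ x z
  have hH := Fht9.htStmt X nc d nr T X₁ X₂ n₁ r₁ n₂ r₂ T₁ T₂ Sl s s₁ s₂ σ σ₁ σ₂ p hg hp K₁ h₁ K₂ h₂ i₁ i₂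
  set S := sp p (ht K₁ true) (ht K₂ false)
  obtain ⟨xx, x1, x2, x3⟩ := exists_flat hp.okL h₁ i₁ x
  obtain ⟨zz, z1, z2, z3⟩ := exists_flat hp.okR h₂ i₂ z
  obtain ⟨l, hl⟩ := hp.cut ∅
  have tΛ : Tendsto S.Λ S.lg atTop := tendsto_comap.mono_left inf_le_left
  have t4 := tendsto_atTop_add_const_right _ (-4) tΛ
  obtain ⟨t₀, h0⟩ := hp.ok.ne
  obtain ⟨cc, hc⟩ := ev_choice (l := S.lg)
    ⟨(t₀, _), h0, as_S hp.ok.toOK h0 (as_base hp.ok.site (cr_of_gd hp.ok.gd))⟩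
    (p := fun δ y => S.Agr δ (3 * S.Λ δ + 3) y (xx (S.Λ δ + -4)) (zz (S.Λ δ + -4))) (by
      filter_upwards [hH, t4.eventually x3, t4.eventually z3, tΛ.eventually_ge_atTop (l / 4),
        tΛ.eventually_ge_atTop (bd K₁ + 4), tΛ.eventually_ge_atTop (bd K₂ + 4),
        mem_inf_of_right (mem_principal_self S.Δ)] with δ ⟨g, k1, k2⟩ k3 k4 k5 k6 k7 k8
      obtain ⟨m1, -, -, m2, m3⟩ := hl δ k8 (by simp only [S, sp] at k5; linarith) _ (xx _).2.1 _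
        (zz _).2.1
      exact exists_glue hp h₁ h₂ _ _ m1 m2 m3 k1 k2 k6 k7 (fun u hu => k3 u (by linarith))
        fun u hu => k4 u (by linarith))
  exact ⟨_, _, cc, hc.mono fun δ k => ⟨x1 _, z1 _, k⟩, fun k => (x2 k).comp t4,
    fun k => (z2 k).comp t4⟩

end Crest.Agent.X212.Gl50
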